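import Mathlib
import Crest.Prelude.Def_TwoAdicShift

/-! Row 113: unicellularity of bilateral weighted shifts with weights `exp (-a j)`, `a j ≍ |j|`
(Newton polygon argument). -/

set_option autoImplicit false

namespace Crest.Agent.R113S

open Crest.AnalysisR.TwoAdic Real Filter Topology

namespace Domar

/-- growth conditions on the potential -/
structure Gr (A : ℤ → ℝ) : Prop where
  lo : ∀ i : ℤ, 10 * |(i : ℝ)| - 10 ≤ A (i + 1) - A i
  up : ∀ i : ℤ, A (i + 1) - A i ≤ 20 * |(i : ℝ)| + 50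

lemma Gr.refl {A : ℤ → ℝ} (lo : ∀ i : ℤ, 10 * |(i : ℝ)| ≤ A (i + 1) - A i)
    (up : ∀ i : ℤ, A (i + 1) - A i ≤ 20 * |(i : ℝ)| + 30) : Gr fun j => -A (-j) := by
  have h : ∀ i : ℤ, |((-(i + 1) : ℤ) : ℝ)| ≤ |(i : ℝ)| + 1 ∧
      |(i : ℝ)| - 1 ≤ |((-(i + 1) : ℤ) : ℝ)| := by
    intro i
    push_cast
    rw [abs_neg]
    constructor
    · simpa using abs_add_le (i : ℝ) 1
    · have := abs_add_le ((i : ℝ) + 1) (-1)
      simp at this
      linarith
  constructor
  · intro i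
    have h1 := lo (-(i + 1))
    rw [show -(i + 1) + 1 = -i by ring] at h1
    have := (h i).2
    linarith
  · intro i
    have h1 := up (-(i + 1))
    rw [show -(i + 1) + 1 = -i by ring] at h1
    have := (h i).1
    linarith

lemma Gr.lo1 {A : ℤ → ℝ} (h : Gr A) (j : ℤ) (n : ℕ) :
    10 * n * j + 5 * (n : ℝ) ^ 2 - 15 * n ≤ A (j + n) - A j := by
  induction n with
  | zero => simp
  | succ n ih =>
    have h1 := h.lo (j + n)
    have h2 := le_abs_self (((j + n : ℤ) : ℝ))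
    rw [show j + ((n + 1 : ℕ) : ℤ) = j + n + 1 by push_cast; ring]
    push_cast at *
    nlinarith

lemma Gr.lo2 {A : ℤ → ℝ} (h : Gr A) (j : ℤ) (n : ℕ) :
    5 * (n : ℝ) ^ 2 - 5 * n - 10 * n * |(j : ℝ)| ≤ A j - A (j - n) := by
  induction n with
  | zero => simp
  | succ n ih =>
    have h1 := h.lo (j - (n + 1 : ℕ))
    have h2 := neg_le_abs (((j - (n + 1 : ℕ) : ℤ) : ℝ))
    have h3 := le_abs_self (j : ℝ)
    rw [show j - ((n + 1 : ℕ) : ℤ) + 1 = j - n by push_cast; ring] at h1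
    push_cast at *
    nlinarith

lemma Gr.up1 {A : ℤ → ℝ} (h : Gr A) (j : ℤ) (n : ℕ) :
    A (j + n) - A j ≤ n * (20 * |(j : ℝ)| + 50) + 10 * (n : ℝ) ^ 2 := by
  induction n with
  | zero => simp
  | succ n ih =>
    have h1 := h.up (j + n)
    have h2 : |((j + n : ℤ) : ℝ)| ≤ |(j : ℝ)| + n := by
      push_cast
      simpa using abs_add_le (j : ℝ) n
    rw [show j + ((n + 1 : ℕ) : ℤ) = j + n + 1 by push_cast; ring]
    have h3 : (0 : ℝ) ≤ n := Nat.cast_nonneg n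
    push_cast at *
    nlinarith

/-- the term of index `j` at the radius `e^t` -/
noncomputable def tm (F A : ℤ → ℝ) (t : ℝ) (j : ℤ) : ℝ := F j * exp (A j - j * t)

lemma tm_shift (F A : ℤ → ℝ) (t r : ℝ) (j : ℤ) : tm F A (t + r) j = tm F A t j * exp (-(j * r)) := by
  unfold tm
  rw [mul_assoc, ← exp_add]
  congr 2
  ring

lemma half {F A : ℤ → ℝ} {B : ℝ} (h : Gr A) (hB : ∀ j, F j ≤ B) {j₀ : ℤ}
    (h0 : 0 < F j₀) : ∃ C : ℝ, ∀ t : ℝ, 0 ≤ t → ∃ ν : ℤ, ν ≤ j₀ ∧ (j₀ : ℝ) - ν ≤ t / 5 + C ∧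
      ∀ j ≤ j₀, tm F A t j ≤ tm F A t ν := by
  set L := log (B / F j₀) with hL
  have hBe : B = F j₀ * exp L := by
    rw [hL, exp_log (div_pos (h0.trans_le (hB _)) h0)]
    field_simp
  have hL0 : 0 ≤ L := log_nonneg ((one_le_div h0).mpr (hB _))
  have hj := abs_nonneg (j₀ : ℝ)
  refine ⟨(10 * |(j₀ : ℝ)| + 5 + L) / 5 + 2, fun t ht => ?_⟩
  set C := (10 * |(j₀ : ℝ)| + 5 + L) / 5 + 1 with hC
  set P := ⌈t / 5 + C⌉₊ with hP
  have hC0 : 1 ≤ C := by rw [hC]; linarith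
  obtain ⟨ν, hν, hmax⟩ := Finset.exists_max_image (Finset.Icc (j₀ - P) j₀) (tm F A t)
    ⟨j₀, by simp⟩
  rw [Finset.mem_Icc] at hν
  refine ⟨ν, hν.2, ?_, fun j hj' => ?_⟩
  · have h1 : (P : ℝ) < t / 5 + C + 1 := Nat.ceil_lt_add_one (by linarith)
    have h2 : ((j₀ - P : ℤ) : ℝ) ≤ ν := by exact_mod_cast hν.1
    push_cast at h2
    linarith
  · by_cases hjP : j₀ - P ≤ j
    · exact hmax j (Finset.mem_Icc.mpr ⟨hjP, hj'⟩)
    · refine le_trans ?_ (hmax j₀ (by simp))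
      obtain ⟨p, rfl⟩ : ∃ p : ℕ, j = j₀ - p := ⟨(j₀ - j).toNat, by omega⟩
      have h1 : (P : ℝ) ≤ p := by exact_mod_cast (by omega : P ≤ p)
      have h2 : t / 5 + C ≤ P := Nat.le_ceil _
      have h3 := h.lo2 j₀ p
      unfold tm
      refine le_trans (mul_le_mul_of_nonneg_right (hB _) (exp_pos _).le) ?_
      rw [hBe, mul_assoc, ← exp_add]
      refine mul_le_mul_of_nonneg_left (exp_le_exp.mpr ?_) h0.le
      push_cast
      have h4 : (1 : ℝ) ≤ p := by linarith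
      have h5 : (p : ℝ) * (t / 5 + C) ≤ p * p :=
        mul_le_mul_of_nonneg_left (h2.trans h1) (by linarith)
      have h6 : L ≤ p * L := by nlinarith
      rw [hC] at h5
      nlinarith

lemma gap {F A : ℤ → ℝ} {B : ℝ} (h : Gr A) (hB : ∀ j, F j ≤ B) {j₀ : ℤ}
    (h0 : 0 < F j₀) : ∃ (C : ℝ) (ν : ℕ → ℤ), 0 ≤ C ∧ (∀ s, ν s ≤ j₀) ∧ (∀ s, ν (s + 1) ≤ ν s) ∧
      (∀ s : ℕ, (j₀ : ℝ) - ν s ≤ 2 * s / 5 + C) ∧
      ∀ s : ℕ, ν (s + 1) = ν s → ∀ j : ℤ, (j ≤ j₀ ∨ (j : ℝ) ≤ (2 * s + 1) / 10 - C) →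
        tm F A (2 * s + 1) j ≤ tm F A (2 * s + 1) (ν s) * exp (-|(j : ℝ) - ν s|) := by
  obtain ⟨C, hC⟩ := half h hB h0
  choose ν h1 h2 h3 using fun s : ℕ => hC (2 * s) (by positivity)
  set L := log (B / F j₀) with hL
  have hBe : B = F j₀ * exp L := by
    rw [hL, exp_log (div_pos (h0.trans_le (hB _)) h0)]
    field_simp
  have hL0 : 0 ≤ L := log_nonneg ((one_le_div h0).mpr (hB _))
  have hj := abs_nonneg (j₀ : ℝ)
  have pos : ∀ s : ℕ, 0 < tm F A (2 * s) (ν s) := fun s =>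
    lt_of_lt_of_le (mul_pos h0 (exp_pos _)) (h3 s j₀ le_rfl)
  refine ⟨|C| + (L + 20 * |(j₀ : ℝ)| + 51) / 10 + |(j₀ : ℝ)|, ν, by positivity, h1, fun s => ?_,
    fun s => ?_, fun s hs => ?_⟩
  · have a1 := h3 s (ν (s + 1)) (h1 _)
    have a2 := h3 (s + 1) (ν s) (h1 _)
    have a3 := pos s
    rw [show (2 * ((s + 1 : ℕ) : ℝ)) = 2 * s + 2 by push_cast; ring, tm_shift, tm_shift] at a2
    have a4 : tm F A (2 * s) (ν s) * exp (-(ν s * 2)) ≤
        tm F A (2 * s) (ν s) * exp (-(ν (s + 1) * 2)) :=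
      a2.trans (mul_le_mul_of_nonneg_right a1 (exp_pos _).le)
    have a5 := exp_le_exp.mp (le_of_mul_le_mul_left a4 a3)
    have : (ν (s + 1) : ℝ) ≤ ν s := by linarith
    exact_mod_cast this
  · have := h2 s
    have := le_abs_self C
    have : 0 ≤ (L + 20 * |(j₀ : ℝ)| + 51) / 10 := by positivity
    linarith
  · have left : ∀ j ≤ j₀, tm F A (2 * s + 1) j ≤
        tm F A (2 * s + 1) (ν s) * exp (-|(j : ℝ) - ν s|) := by
      intro j hj'
      rcases le_total j (ν s) with hle | hle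
      · have a2 := h3 (s + 1) j hj'
        rw [hs, show (2 * ((s + 1 : ℕ) : ℝ)) = 2 * s + 1 + 1 by push_cast; ring, tm_shift,
          tm_shift F A (2 * s + 1)] at a2
        have hle' : (j : ℝ) ≤ ν s := by exact_mod_cast hle
        rw [abs_of_nonpos (by linarith)]
        have e : exp (- -((j : ℝ) - ν s)) = exp (-(ν s * 1)) * exp (j * 1) := by
          rw [← exp_add]; congr 1; ring
        have e2 : tm F A (2 * s + 1) j = tm F A (2 * s + 1) j * exp (-(j * 1)) * exp (j * 1) := by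
          rw [mul_assoc, ← exp_add]; simp
        rw [e, e2, ← mul_assoc]
        exact mul_le_mul_of_nonneg_right a2 (exp_pos _).le
      · have a2 := h3 s j hj'
        have hle' : (ν s : ℝ) ≤ j := by exact_mod_cast hle
        rw [abs_of_nonneg (by linarith), tm_shift, tm_shift, mul_assoc, ← exp_add]
        refine (mul_le_mul_of_nonneg_right a2 (exp_pos _).le).trans (le_of_eq ?_)
        congr 2
        ring
    intro j hj'
    by_cases hjj : j ≤ j₀
    · exact left j hjj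
    · obtain ⟨p, rfl⟩ : ∃ p : ℕ, j = j₀ + p := ⟨(j - j₀).toNat, by omega⟩
      have hp : (1 : ℝ) ≤ p := by exact_mod_cast (by omega : 1 ≤ p)
      have hj2 := hj'.resolve_left hjj
      have a1 := left j₀ le_rfl
      have a2 : (ν s : ℝ) ≤ j₀ := by exact_mod_cast h1 s
      have a3 := h.up1 j₀ p
      have a4 : tm F A (2 * s + 1) (j₀ + p) ≤ tm F A (2 * s + 1) j₀ * exp (-p) := by
        unfold tm
        refine le_trans (mul_le_mul_of_nonneg_right (hB _) (exp_pos _).le) ?_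
        rw [hBe, mul_assoc, mul_assoc, ← exp_add, ← exp_add]
        refine mul_le_mul_of_nonneg_left (exp_le_exp.mpr ?_) h0.le
        push_cast at hj2 ⊢
        have b1 := abs_nonneg C
        have b2 := neg_le_abs (j₀ : ℝ)
        have b3 : L + 20 * |(j₀ : ℝ)| + 51 + 10 * p ≤ 2 * s + 1 := by linarith
        have b4 := mul_le_mul_of_nonneg_left b3 (by linarith : (0 : ℝ) ≤ p)
        have h6 : L ≤ p * L := by nlinarith
        nlinarith
      rw [abs_of_nonneg (by linarith)] at a1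
      rw [abs_of_nonneg (by push_cast; linarith)]
      refine a4.trans ((mul_le_mul_of_nonneg_right a1 (exp_pos _).le).trans (le_of_eq ?_))
      rw [mul_assoc, ← exp_add]
      congr 2
      push_cast
      ring

lemma pigeon (N : ℕ → ℝ) (C : ℝ) (h0 : ∀ s, 0 ≤ N s) (hC : ∀ s : ℕ, N s ≤ 4 * s / 5 + C) (s₀ : ℕ) :
    ∃ s, s₀ ≤ s ∧ N (s + 1) < N s + 1 := by
  by_contra hcon
  push Not at hcon
  have : ∀ k : ℕ, (k : ℝ) ≤ N (s₀ + k) := by
    intro k
    induction k with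
    | zero => simpa using h0 s₀
    | succ k ih =>
      have := hcon (s₀ + k) (by omega)
      rw [← add_assoc]
      push_cast
      linarith
  obtain ⟨k, hk⟩ := exists_nat_gt (4 * s₀ + 5 * C)
  have h1 := this k
  have h2 := hC (s₀ + k)
  push_cast at h2
  linarith

lemma geo : HasSum (fun k : ℤ => (1 / 4 : ℝ) ^ k.natAbs) (5 / 3) := by
  have h1 : HasSum (fun n : ℕ => (1 / 4 : ℝ) ^ n) (4 / 3) := by
    have := hasSum_geometric_of_lt_one (r := (1 / 4 : ℝ)) (by norm_num) (by norm_num)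
    convert this using 1
    norm_num
  have h2 : HasSum (fun n : ℕ => (1 / 4 : ℝ) ^ (n + 1)) (1 / 3) := by
    have := h1.mul_right (1 / 4)
    simp only [← pow_succ] at this
    rwa [show (4 / 3 * (1 / 4) : ℝ) = 1 / 3 by norm_num] at this
  have := HasSum.of_nat_of_neg_add_one (f := fun k : ℤ => (1 / 4 : ℝ) ^ k.natAbs)
    (m := 4 / 3) (m' := 1 / 3) (by simpa using h1) (by
      have e : ∀ n : ℕ, (-((n : ℤ) + 1)).natAbs = n + 1 := fun n => by omega
      simpa only [e] using h2)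
  rwa [show (4 / 3 + 1 / 3 : ℝ) = 5 / 3 by norm_num] at this

lemma exp_geo (k : ℤ) : exp (-|(k : ℝ)|) * exp (-|(k : ℝ)|) ≤ (1 / 4 : ℝ) ^ k.natAbs := by
  have h1 : |(k : ℝ)| = (k.natAbs : ℝ) := by simp
  have h2 : exp (-1 : ℝ) ≤ 1 / 2 := by
    rw [exp_neg, ← one_div]
    exact one_div_le_one_div_of_le (by norm_num) (by linarith [add_one_le_exp (1 : ℝ)])
  rw [h1, show -(k.natAbs : ℝ) = k.natAbs * (-1) by ring, exp_nat_mul, ← mul_pow]
  exact pow_le_pow_left₀ (by positivity) (by nlinarith [exp_pos (-1 : ℝ)]) _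

lemma tail_small {q : ℤ → ℝ} (hq : Summable q) (h0 : ∀ j, 0 ≤ q j) {ε : ℝ} (hε : 0 < ε) :
    ∃ J₀ : ℝ, ∀ J : ℝ, J₀ ≤ J → ∑' j : ℤ, (if J < |(j : ℝ)| then q j else 0) ≤ ε := by
  obtain ⟨s, hs⟩ := summable_iff_vanishing_norm.mp hq ε hε
  refine ⟨∑ j ∈ s, |(j : ℝ)|, fun J hJ => ?_⟩
  refine Real.tsum_le_of_sum_le (fun j => by split_ifs <;> simp [h0]) fun t => ?_
  rw [← Finset.sum_filter]
  refine le_trans (le_abs_self _) (hs _ ?_).le
  rw [Finset.disjoint_left]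
  intro j hj hjs
  have h1 := (Finset.mem_filter.mp hj).2
  have h2 : |(j : ℝ)| ≤ ∑ j ∈ s, |(j : ℝ)| :=
    Finset.single_le_sum (f := fun j : ℤ => |(j : ℝ)|) (fun _ _ => abs_nonneg _) hjs
  linarith

lemma amgm {x y δ : ℝ} (hδ : 0 < δ) : x * y ≤ x ^ 2 / δ + δ * y ^ 2 := by
  have h1 : x ^ 2 / δ + δ * y ^ 2 - x * y = ((x - δ * y / 2) ^ 2 + 3 / 4 * (δ * y) ^ 2) / δ := by
    field_simp
    ring
  have h2 : 0 ≤ ((x - δ * y / 2) ^ 2 + 3 / 4 * (δ * y) ^ 2) / δ := by positivity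
  linarith

lemma far {A : ℤ → ℝ} (h : Gr A) {C t : ℝ} (n : ℕ) {j : ℤ} (hj : t / 10 - C < j) :
    exp (A j - A (j + n)) ≤ exp ((10 * C + 15) ^ 2 / 20) * exp (-(n * t)) := by
  rw [← exp_add]
  refine exp_le_exp.mpr ?_
  have h1 := h.lo1 j n
  have h2 := mul_le_mul_of_nonneg_left hj.le (Nat.cast_nonneg (α := ℝ) n)
  nlinarith [sq_nonneg (10 * (n : ℝ) - (10 * C + 15))]

lemma comb1 {X M G D W1 W2 : ℝ} (w3 : 0 ≤ M * G) (h : 0 ≤ M * D * W2) (a : X ≤ W1 * (M * D)) :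
    X ≤ M * (G + D * (W1 + W2)) := by nlinarith

lemma comb2 {D δ P Q Sf Sg : ℝ} (b1 : D * P ≤ 1 / 24) (b2 : D * Q ≤ 1 / 24)
    (b3 : D * δ * (Sf + Sg + 1) = 1 / 12) (b4 : 0 < D * δ) :
    (5 / 3 : ℝ) + D * (P + δ * Sg + (Q + δ * Sf)) < 2 := by nlinarith

set_option maxHeartbeats 1000000 in
lemma core {A : ℤ → ℝ} (hA : Gr A) (hA' : Gr fun j => -A (-j)) {f g : ℤ → ℂ}
    {Sf Sg : ℝ} (hf : HasSum (fun j => ‖f j‖ ^ 2) Sf) (hg : HasSum (fun j => ‖g j‖ ^ 2) Sg)
    {j₀ j₁ : ℤ}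
    (hj : j₀ ≤ j₁) (hf0 : f j₀ ≠ 0) (hg0 : g j₁ ≠ 0)
    (H : ∀ n : ℕ, HasSum (fun j => f j * (exp (A j - A (j + n)) : ℝ) * g (j + n)) 0) : False := by
  have hSf : 0 ≤ Sf := hf.nonneg fun _ => by positivity
  have hSg : 0 ≤ Sg := hg.nonneg fun _ => by positivity
  obtain ⟨C₁, ν, c1, n1, n2, n3, n4⟩ := gap (F := fun j => ‖f j‖) (B := 1 + Sf) hA (fun j => by
    have := le_hasSum hf j fun _ _ => by positivity
    nlinarith [sq_nonneg (‖f j‖ - 1)]) (j₀ := j₀) (norm_pos_iff.mpr hf0)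
  obtain ⟨C₂, μ, c2, m1, m2, m3, m4⟩ := gap (F := fun j => ‖g (-j)‖) (B := 1 + Sg) hA' (fun j => by
    have := le_hasSum hg (-j) fun _ _ => by positivity
    nlinarith [sq_nonneg (‖g (-j)‖ - 1)]) (j₀ := -j₁) (by simpa using hg0)
  obtain ⟨C, hC⟩ : ∃ C, C = C₁ + C₂ := ⟨_, rfl⟩
  obtain ⟨m₀, hm₀⟩ : ∃ m₀, m₀ = ‖f j₀‖ * ‖g j₁‖ * exp (A j₀ - A j₁) := ⟨_, rfl⟩
  have m0pos : 0 < m₀ := by
    have := norm_pos_iff.mpr hf0
    have := norm_pos_iff.mpr hg0
    rw [hm₀]
    positivity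
  obtain ⟨D, hD⟩ : ∃ D, D = exp ((10 * C + 15) ^ 2 / 20) / m₀ := ⟨_, rfl⟩
  have Dpos : 0 < D := by rw [hD]; positivity
  obtain ⟨δ, hδ⟩ : ∃ δ, δ = 1 / (12 * D * (Sf + Sg + 1)) := ⟨_, rfl⟩
  have δpos : 0 < δ := by rw [hδ]; positivity
  obtain ⟨J₁, hJ₁⟩ := tail_small hf.summable (fun _ => by positivity) (ε := δ / (24 * D)) (by positivity)
  obtain ⟨J₂, hJ₂⟩ := tail_small hg.summable (fun _ => by positivity) (ε := δ / (24 * D)) (by positivity)
  obtain ⟨s₀, hs₀⟩ := exists_nat_gt (5 * (max J₁ J₂ + C))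
  obtain ⟨s, hs, hN⟩ := pigeon (fun s => ((j₀ : ℝ) - ν s) + (((-j₁ : ℤ) : ℝ) - μ s)) C
    (fun s => by
      have a1 : (ν s : ℝ) ≤ j₀ := by exact_mod_cast n1 s
      have a2 : (μ s : ℝ) ≤ ((-j₁ : ℤ) : ℝ) := by exact_mod_cast m1 s
      linarith)
    (fun s => by have := n3 s; have := m3 s; linarith) s₀
  have hN' : ν s + μ s < ν (s + 1) + μ (s + 1) + 1 := by
    have : (ν s : ℝ) + μ s < ν (s + 1) + μ (s + 1) + 1 := by linarith
    exact_mod_cast this
  have e1 : ν (s + 1) = ν s := by have := n2 s; have := m2 s; omega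
  have e2 : μ (s + 1) = μ s := by have := n2 s; have := m2 s; omega
  replace n4 := n4 s e1
  replace m4 := m4 s e2
  obtain ⟨n, hn⟩ : ∃ n : ℕ, μ s = -(ν s + n) :=
    ⟨(-μ s - ν s).toNat, by have := n1 s; have := m1 s; omega⟩
  obtain ⟨t, ht⟩ : ∃ t : ℝ, t = 2 * s + 1 := ⟨_, rfl⟩
  rw [← ht] at n4 m4
  have t0 : 0 ≤ t := by rw [ht]; positivity
  obtain ⟨J, hJ⟩ : ∃ J, J = t / 10 - C := ⟨_, rfl⟩
  have hJ' : max J₁ J₂ ≤ J := by
    have : (s₀ : ℝ) ≤ s := by exact_mod_cast hs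
    linarith
  replace hJ₁ := hJ₁ J ((le_max_left _ _).trans hJ')
  replace hJ₂ := hJ₂ J ((le_max_right _ _).trans hJ')
  obtain ⟨u, hu⟩ : ∃ u : ℤ → ℂ, u = fun j => f j * (exp (A j - A (j + n)) : ℝ) * g (j + n) :=
    ⟨_, rfl⟩
  have nu : ∀ j, ‖u j‖ = ‖f j‖ * ‖g (j + n)‖ * exp (A j - A (j + n)) := by
    intro j
    simp only [hu, norm_mul, Complex.norm_real, Real.norm_eq_abs, abs_of_pos (exp_pos _)]
    ring
  have nu' : ∀ j, ‖u j‖ = tm (fun j => ‖f j‖) A t j *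
      tm (fun j => ‖g (-j)‖) (fun j => -A (-j)) t (-(j + n)) * exp (-(n * t)) := by
    intro j
    rw [nu, tm, tm]
    simp only [neg_neg]
    rw [show A j - A (j + n) = (A j - j * t) + (-A (j + n) - ((-(j + n) : ℤ) : ℝ) * t) + -(n * t) by
      push_cast; ring, exp_add, exp_add]
    ring
  have tf : ∀ j, 0 ≤ tm (fun j => ‖f j‖) A t j := fun j => by unfold tm; positivity
  have tg : ∀ j, 0 ≤ tm (fun j => ‖g (-j)‖) (fun j => -A (-j)) t j := fun j => by
    unfold tm; positivity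
  obtain ⟨M, hM⟩ : ∃ M, M = ‖u (ν s)‖ := ⟨_, rfl⟩
  have hM0 : m₀ * exp (-(n * t)) ≤ M := by
    rw [hM, nu', ← hn]
    refine mul_le_mul_of_nonneg_right ?_ (exp_pos _).le
    have a1 := (n4 j₀ (Or.inl le_rfl)).trans (mul_le_of_le_one_right (tf _)
      (exp_le_one_iff.mpr (neg_nonpos.mpr (abs_nonneg _))))
    have a2 := (m4 (-j₁) (Or.inl le_rfl)).trans (mul_le_of_le_one_right (tg _)
      (exp_le_one_iff.mpr (neg_nonpos.mpr (abs_nonneg _))))
    refine le_trans ?_ (mul_le_mul a1 a2 (tg _) (tf _))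
    rw [hm₀, tm, tm]
    simp only [neg_neg]
    rw [mul_mul_mul_comm, ← exp_add]
    refine mul_le_mul_of_nonneg_left (exp_le_exp.mpr ?_) (by positivity)
    have : (j₀ : ℝ) ≤ j₁ := by exact_mod_cast hj
    push_cast
    nlinarith
  have Mpos : 0 < M := lt_of_lt_of_le (by positivity) hM0
  have hMD : exp ((10 * C + 15) ^ 2 / 20) * exp (-(n * t)) ≤ M * D := by
    rw [hD, mul_div_assoc', le_div_iff₀ m0pos]
    nlinarith [exp_pos ((10 * C + 15) ^ 2 / 20)]
  obtain ⟨p, hp⟩ : ∃ p : ℤ → ℝ, p = fun j : ℤ => if J < |(j : ℝ)| then ‖f j‖ ^ 2 else 0 :=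
    ⟨_, rfl⟩
  obtain ⟨q, hq⟩ : ∃ q : ℤ → ℝ, q = fun j : ℤ => if J < |(j : ℝ)| then ‖g j‖ ^ 2 else 0 :=
    ⟨_, rfl⟩
  rw [← hp] at hJ₁
  rw [← hq] at hJ₂
  have p0 : ∀ j, 0 ≤ p j := fun j => by simp only [hp]; split_ifs <;> positivity
  have q0 : ∀ j, 0 ≤ q j := fun j => by simp only [hq]; split_ifs <;> positivity
  have sp : Summable p := hf.summable.of_nonneg_of_le p0 fun j => by
    simp only [hp]; split_ifs <;> first | rfl | positivity
  have sq : Summable q := hg.summable.of_nonneg_of_le q0 fun j => by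
    simp only [hq]; split_ifs <;> first | rfl | positivity
  have bd : ∀ j, ‖u j‖ ≤ M * ((1 / 4 : ℝ) ^ (j - ν s).natAbs +
      D * (p j / δ + δ * ‖g (j + n)‖ ^ 2 + (q (j + n) / δ + δ * ‖f j‖ ^ 2))) := by
    intro j
    have w1 : 0 ≤ p j / δ + δ * ‖g (j + n)‖ ^ 2 := by have := p0 j; positivity
    have w2 : 0 ≤ q (j + n) / δ + δ * ‖f j‖ ^ 2 := by have := q0 (j + n); positivity
    have w3 : 0 ≤ M * (1 / 4 : ℝ) ^ (j - ν s).natAbs := by positivity
    have w4 : 0 ≤ M * D := by positivity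
    by_cases k1 : J < j
    · have a1 := (far hA n (hJ ▸ k1)).trans hMD
      have a2 : ‖f j‖ * ‖g (j + n)‖ ≤ p j / δ + δ * ‖g (j + n)‖ ^ 2 := by
        simp only [hp]
        rw [if_pos (k1.trans_le (le_abs_self _))]
        exact amgm δpos
      have a3 := mul_le_mul a2 a1 (exp_pos _).le w1
      rw [nu]
      exact comb1 w3 (mul_nonneg w4 w2) a3
    by_cases k2 : J < ((-(j + n) : ℤ) : ℝ)
    · have a1 := (far hA' n (hJ ▸ k2)).trans hMD
      simp only [neg_neg, show -(-(j + n) + (n : ℤ)) = j by ring] at a1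
      rw [show -A (j + n) - -A j = A j - A (j + n) by ring] at a1
      have a2 : ‖f j‖ * ‖g (j + n)‖ ≤ q (j + n) / δ + δ * ‖f j‖ ^ 2 := by
        simp only [hq]
        rw [if_pos (k2.trans_le (by rw [Int.cast_neg]; exact neg_le_abs _)), mul_comm]
        exact amgm δpos
      have a3 := mul_le_mul a2 a1 (exp_pos _).le w2
      rw [nu, add_comm (p j / δ + _)]
      exact comb1 w3 (mul_nonneg w4 w1) a3
    · have a1 := n4 j (Or.inr (by linarith))
      have a2 := m4 (-(j + n)) (Or.inr (by linarith))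
      have a3 := exp_geo (j - ν s)
      have a4 : |((-(j + n) : ℤ) : ℝ) - μ s| = |((j - ν s : ℤ) : ℝ)| := by
        rw [hn, ← abs_neg]
        push_cast
        congr 1
        ring
      rw [a4] at a2
      rw [← Int.cast_sub] at a1
      have a5 := mul_le_mul_of_nonneg_right (mul_le_mul a1 a2 (tg _)
        (mul_nonneg (tf _) (exp_pos _).le)) (exp_pos (-(n * t))).le
      rw [← nu'] at a5
      have a6 : ‖u j‖ ≤ M * (1 / 4 : ℝ) ^ (j - ν s).natAbs := by
        refine a5.trans (le_trans (le_of_eq ?_) (mul_le_mul_of_nonneg_left a3 Mpos.le))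
        rw [hM, nu', ← hn]
        ring
      rw [mul_add, ← mul_assoc]
      exact a6.trans (le_add_of_nonneg_right (mul_nonneg w4 (add_nonneg w1 w2)))
  have s1 : HasSum (fun j : ℤ => (1 / 4 : ℝ) ^ (j - ν s).natAbs) (5 / 3) :=
    (Equiv.subRight (ν s)).hasSum_iff.mpr geo
  have s2 : HasSum (fun j : ℤ => ‖g (j + n)‖ ^ 2) Sg :=
    (Equiv.addRight (n : ℤ)).hasSum_iff.mpr hg
  have s3 : HasSum (fun j : ℤ => q (j + n)) (∑' j, q j) :=
    (Equiv.addRight (n : ℤ)).hasSum_iff.mpr sq.hasSum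
  have s4 := (s1.add ((((sp.hasSum.div_const δ).add (s2.mul_left δ)).add
    ((s3.div_const δ).add (hf.mul_left δ))).mul_left D)).mul_left M
  have s5 := (hu ▸ H n : HasSum u 0).sub (hasSum_ite_eq (ν s) (2 * u (ν s)))
  have s6 := s5.norm_le_of_bounded s4 fun j => by
    refine le_trans (le_of_eq ?_) (bd j)
    split_ifs with h
    · rw [h, show u (ν s) - 2 * u (ν s) = -u (ν s) by ring, norm_neg]
    · rw [sub_zero]
  rw [zero_sub, norm_neg, norm_mul, ← hM] at s6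
  have b1 : D * ((∑' j, p j) / δ) ≤ 1 / 24 := by
    rw [mul_div_assoc', div_le_iff₀ δpos]
    have := mul_le_mul_of_nonneg_left hJ₁ Dpos.le
    rwa [show D * (δ / (24 * D)) = 1 / 24 * δ by field_simp] at this
  have b2 : D * ((∑' j, q j) / δ) ≤ 1 / 24 := by
    rw [mul_div_assoc', div_le_iff₀ δpos]
    have := mul_le_mul_of_nonneg_left hJ₂ Dpos.le
    rwa [show D * (δ / (24 * D)) = 1 / 24 * δ by field_simp] at this
  have b3 : D * δ * (Sf + Sg + 1) = 1 / 12 := by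
    rw [hδ]
    field_simp
  have b4 : 0 < D * δ := by positivity
  have b6 := s6.trans_lt (mul_lt_mul_of_pos_left (comb2 b1 b2 b3 b4) Mpos)
  rw [Complex.norm_ofNat, mul_comm] at b6
  exact lt_irrefl _ b6

lemma ev_inner (k : ℤ) (v : seqHilbert) : inner ℂ (basisVec k) v = v k := by
  simp [basisVec, lp.inner_single_left]

lemma hasSum_basis (v : seqHilbert) : HasSum (fun j => v j • basisVec j) v := by
  have := lp.hasSum_single (p := 2) (by simp) v
  convert this using 2 with j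
  rw [basisVec, ← lp.single_smul]
  simp

lemma basis_apply (j k : ℤ) : basisVec j k = if k = j then 1 else 0 := by
  simp [basisVec, lp.single_apply, Pi.single_apply]

end Domar

open Domar

theorem mem_tailSpace {h : ℤ} {v : seqHilbert} : v ∈ tailSpace h ↔ ∀ j < h, v j = 0 := by
  constructor
  · intro hv j hj
    have : tailSpace h ≤ LinearMap.ker (innerSL ℂ (basisVec j)).toLinearMap := by
      refine Submodule.topologicalClosure_minimal _ (Submodule.span_le.mpr ?_)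
        (ContinuousLinearMap.isClosed_ker _)
      rintro _ ⟨⟨i, hi⟩, rfl⟩
      have : j ≠ i := by omega
      simp [ev_inner, basis_apply, this]
    simpa [ev_inner] using this hv
  · intro hv
    refine (Submodule.isClosed_topologicalClosure _).mem_of_tendsto (hasSum_basis v)
      (Eventually.of_forall fun s => Submodule.sum_mem _ fun j _ => ?_)
    by_cases hj : j < h
    · simp [hv j hj]
    · exact Submodule.smul_mem _ _ (Submodule.le_topologicalClosure _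
        (Submodule.subset_span ⟨⟨j, not_lt.mp hj⟩, rfl⟩))

/-- coordinates of a weighted shift (by any step `e`) -/
theorem shift_apply {S : seqHilbert →L[ℂ] seqHilbert} {w : ℤ → ℂ} {e : ℤ}
    (hS : ∀ j, S (basisVec j) = w j • basisVec (j + e)) (v : seqHilbert) (j : ℤ) :
    S v (j + e) = w j * v j := by
  have h1 := ((innerSL ℂ (basisVec (j + e))).comp S).hasSum (hasSum_basis v)
  have h2 : HasSum (fun i => ((innerSL ℂ (basisVec (j + e))).comp S) (v i • basisVec i))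
      (w j * v j) := by
    convert hasSum_ite_eq j (w j * v j) using 2 with i
    simp only [ContinuousLinearMap.comp_apply, map_smul, hS, innerSL_apply_apply, ev_inner,
      basis_apply, add_left_inj, smul_eq_mul]
    by_cases h : i = j
    · subst h
      simp [mul_comm]
    · simp [h, Ne.symm h]
  simpa [ev_inner] using h1.unique h2

theorem unicell (a : ℤ → ℝ) (h1 : ∀ i : ℤ, 10 * |(i : ℝ)| ≤ a i)
    (h2 : ∀ i : ℤ, a i ≤ 20 * |(i : ℝ)| + 30) (S : seqHilbert →L[ℂ] seqHilbert)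
    (hS : ∀ j, S (basisVec j) = (Real.exp (-a j) : ℂ) • basisVec (j + 1))
    (W : Submodule ℂ seqHilbert) (hW : IsClosed (W : Set seqHilbert)) :
    (∀ v ∈ W, S v ∈ W) ↔ (W = ⊥ ∨ W = ⊤ ∨ ∃ h : ℤ, W = tailSpace h) := by
  have hc := shift_apply hS
  constructor
  · intro hinv
    obtain ⟨A, hA⟩ : ∃ A : ℤ → ℝ, ∀ i, A (i + 1) - A i = a i := by
      refine ⟨fun j => ∑ i ∈ Finset.range j.toNat, a i -
        ∑ i ∈ Finset.range (-j).toNat, a (-(i + 1)), fun i => ?_⟩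
      rcases le_or_gt 0 i with hi | hi
      · obtain ⟨n, rfl⟩ := Int.eq_ofNat_of_zero_le hi
        simp only [show ((n : ℤ) + 1).toNat = n + 1 by omega, show (-((n : ℤ) + 1)).toNat = 0 by omega,
          show (-(n : ℤ)).toNat = 0 by omega, Int.toNat_natCast, Finset.sum_range_succ]
        ring
      · obtain ⟨n, rfl⟩ : ∃ n : ℕ, i = -((n : ℤ) + 1) := ⟨(-i - 1).toNat, by omega⟩
        simp only [show (-((n : ℤ) + 1) + 1).toNat = 0 by omega,
          show (-(-((n : ℤ) + 1) + 1)).toNat = n by omega, show (-((n : ℤ) + 1)).toNat = 0 by omega,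
          show (-(-((n : ℤ) + 1))).toNat = n + 1 by omega, Finset.sum_range_succ]
        ring
    have g1 : Gr A := ⟨fun i => by rw [hA]; linarith [h1 i], fun i => by rw [hA]; linarith [h2 i]⟩
    have g2 : Gr fun j => -A (-j) := Gr.refl (fun i => by rw [hA]; exact h1 i)
      fun i => by rw [hA]; exact h2 i
    have hpow : ∀ (n : ℕ) (v : seqHilbert) (j : ℤ),
        (S ^ n) v (j + n) = v j * (exp (A j - A (j + n)) : ℝ) := by
      intro n v
      induction n with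
      | zero => simp
      | succ n ih =>
        intro j
        rw [pow_succ', mul_apply_eq_comp, Nat.cast_succ, ← add_assoc, hc, ih,
          ← hA, mul_left_comm, ← Complex.ofReal_mul, ← exp_add]
        congr 3
        ring
    have hWn : ∀ (n : ℕ), ∀ v ∈ W, (S ^ n) v ∈ W := by
      intro n v hv
      induction n with
      | zero => simpa using hv
      | succ n ih => rw [pow_succ', mul_apply_eq_comp]; exact hinv _ ih
    have sq : ∀ v : seqHilbert, HasSum (fun j => ‖v j‖ ^ 2) (‖v‖ ^ 2) := fun v => by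
      simpa using lp.hasSum_norm (p := 2) (by simp) v
    have key : ∀ f ∈ W, ∀ j₀ j₁ : ℤ, j₀ ≤ j₁ → f j₀ ≠ 0 → basisVec j₁ ∈ W := by
      intro f hf j₀ j₁ hj hf0
      have := hW.completeSpace_coe
      rw [← W.orthogonal_orthogonal, Submodule.mem_orthogonal]
      intro g hg
      rw [← inner_conj_symm, ev_inner, map_eq_zero]
      by_contra hg0
      refine core g1 g2 (f := f) (g := fun j => starRingEnd ℂ (g j)) (sq f)
        (by simpa using sq g) hj hf0 (by simpa using hg0) fun n => ?_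
      have e1 := lp.hasSum_inner (𝕜 := ℂ) g ((S ^ n) f)
      rw [Submodule.inner_left_of_mem_orthogonal (hWn n f hf) hg] at e1
      have e2 := (Equiv.addRight (n : ℤ)).hasSum_iff.mpr e1
      have e3 : (fun j => f j * (exp (A j - A (j + n)) : ℝ) * starRingEnd ℂ (g (j + n))) =
          (fun i => inner ℂ (g i) (((S ^ n) f) i)) ∘ Equiv.addRight (n : ℤ) := by
        funext j
        simp only [Function.comp_apply, Equiv.coe_addRight, hpow, RCLike.inner_apply]
      rw [e3]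
      exact e2
    by_cases hb : ∃ b : ℤ, ∀ z : ℤ, (∃ f ∈ W, f z ≠ 0) → b ≤ z
    · by_cases hn : ∃ z : ℤ, ∃ f ∈ W, f z ≠ 0
      · obtain ⟨h, ⟨f, hf, hf0⟩, hmin⟩ := Int.exists_least_of_bdd hb hn
        refine Or.inr (Or.inr ⟨h, le_antisymm (fun v hv => mem_tailSpace.mpr fun j hj => ?_) ?_⟩)
        · by_contra hv0
          exact absurd (hmin j ⟨v, hv, hv0⟩) (not_le.mpr hj)
        · refine Submodule.topologicalClosure_minimal _ (Submodule.span_le.mpr ?_) hW
          rintro _ ⟨⟨i, hi⟩, rfl⟩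
          exact key f hf h i hi hf0
      · refine Or.inl (eq_bot_iff.mpr fun v hv => ?_)
        push Not at hn
        exact lp.ext (funext fun j => hn j v hv)
    · push Not at hb
      refine Or.inr (Or.inl (eq_top_iff.mpr fun v _ => ?_))
      refine hW.mem_of_tendsto (hasSum_basis v)
        (Eventually.of_forall fun s => Submodule.sum_mem _ fun j _ => Submodule.smul_mem _ _ ?_)
      obtain ⟨z, ⟨f, hf, hf0⟩, hz⟩ := hb j
      exact key f hf z j hz.le hf0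
  · rintro (rfl | rfl | ⟨h, rfl⟩) v hv
    · rw [Submodule.mem_bot] at hv ⊢
      simp [hv]
    · trivial
    · rw [mem_tailSpace] at hv ⊢
      intro j hj
      rw [show j = j - 1 + 1 by ring, hc, hv _ (by omega), mul_zero]

end Crest.Agent.R113S
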