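import Crest.Agent.R113B.Of

set_option autoImplicit false
open Filter Topology
open Crest.AnalysisR.TwoAdic MeasureTheory
open scoped InnerProductSpace
attribute [local instance] Crest.AnalysisR.TwoAdic.borelTwoAdic Crest.AnalysisR.TwoAdic.borelSpace_twoAdic

namespace Crest.Agent.R113S.Trans
open Crest.Agent.R113B

instance instHaar : Measure.IsAddHaarMeasure haarTwoAdic := by
  unfold haarTwoAdic; infer_instance

theorem ergodic_odo : Ergodic (fun x : ℤ_[2] => x + 1) haarTwoAdic := by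
  have h : DenseRange (fun n : ℕ => n • (1 : ℤ_[2])) := by
    simpa using PadicInt.denseRange_natCast (p := 2)
  have := ergodic_add_left_of_denseRange_nsmul h haarTwoAdic
  simpa [add_comm] using this

/-- coordinate evaluation -/
noncomputable def ev (j : ℤ) : seqHilbert →L[ℂ] ℂ := innerSL ℂ (basisVec j)

theorem ev_apply (j : ℤ) (v : seqHilbert) : ev j v = v j := by
  simp [ev, basisVec, lp.inner_single_left]

theorem ev_basis (j i : ℤ) : ev j (basisVec i) = if j = i then 1 else 0 := by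
  rw [ev_apply, basisVec, lp.single_apply, Pi.single_apply]

theorem clm_ext {F : Type*} [NormedAddCommGroup F] [NormedSpace ℂ F] (A B : seqHilbert →L[ℂ] F)
    (h : ∀ j, A (basisVec j) = B (basisVec j)) : A = B := by
  ext1 v
  have h1 : HasSum (fun j : ℤ => v j • basisVec j) v := by
    have := lp.hasSum_single (E := fun _ : ℤ => ℂ) (p := 2) (by norm_num) v
    convert this using 2 with j
    rw [basisVec, ← lp.single_smul]
    simp
  have h2 := A.hasSum h1
  have h3 := B.hasSum h1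
  simp only [map_smul] at h2 h3
  simp only [h] at h2
  exact h2.unique h3

theorem ev_tail {h j : ℤ} (hj : j < h) {v : seqHilbert} (hv : v ∈ tailSpace h) : ev j v = 0 := by
  have : tailSpace h ≤ LinearMap.ker (ev j : seqHilbert →ₗ[ℂ] ℂ) := by
    apply Submodule.topologicalClosure_minimal
    · rw [Submodule.span_le]
      rintro _ ⟨i, rfl⟩
      have : j ≠ (i : ℤ) := by have := i.2; omega
      simp [ev_basis, this]
    · exact (ev j).isClosed_ker
  exact this hv

theorem basis_mem_tail {h j : ℤ} (hj : h ≤ j) : basisVec j ∈ tailSpace h :=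
  Submodule.le_topologicalClosure _ (Submodule.subset_span ⟨⟨j, hj⟩, rfl⟩)

theorem ev_V (A : seqHilbert →L[ℂ] seqHilbert) (c : ℤ → ℂ)
    (hA : ∀ j, A (basisVec j) = c j • basisVec (j - 1)) (j : ℤ) (v : seqHilbert) :
    ev (j - 1) (A v) = c j * ev j v := by
  have : (ev (j - 1)).comp A = c j • ev j := by
    apply clm_ext
    intro i
    simp only [ContinuousLinearMap.comp_apply, hA, map_smul, ev_basis, smul_apply,
      smul_eq_mul]
    by_cases hij : j = i
    · subst hij; simp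
    · have : j - 1 ≠ i - 1 := by omega
      simp [hij, this]
  exact congrArg (fun T : seqHilbert →L[ℂ] ℂ => T v) this

theorem orth_ae (W : Submodule ℂ fibreSpace)
    (hM : ∀ g : ℤ_[2] → ℂ, Measurable g → (∃ C : ℝ, ∀ x, ‖g x‖ ≤ C) →
          ∀ f ∈ W, ∀ f' : fibreSpace,
            (∀ᵐ x ∂haarTwoAdic, (f' : ℤ_[2] → seqHilbert) x = g x • (f : ℤ_[2] → seqHilbert) x) → f' ∈ W)
    {g f : fibreSpace} (hg : g ∈ Wᗮ) (hf : f ∈ W) :
    ∀ᵐ x ∂haarTwoAdic, ⟪(g : ℤ_[2] → seqHilbert) x, (f : ℤ_[2] → seqHilbert) x⟫_ℂ = 0 := by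
  apply (L2.integrable_inner (𝕜 := ℂ) g f).ae_eq_zero_of_forall_setIntegral_eq_zero
  intro s hs _
  have hm : Measurable (s.indicator (fun _ => (1 : ℂ))) := measurable_const.indicator hs
  have hb : ∀ x, ‖s.indicator (fun _ => (1 : ℂ)) x‖ ≤ 1 := by
    intro x; by_cases hx : x ∈ s <;> simp [hx]
  obtain ⟨M, hMf⟩ := exists_mul _ hm 1 hb
  have h1 : M f ∈ W := hM _ hm ⟨1, hb⟩ f hf _ (hMf f)
  have h2 : ⟪g, M f⟫_ℂ = 0 := Submodule.inner_left_of_mem_orthogonal h1 hg
  rw [L2.inner_def] at h2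
  rw [← integral_indicator hs, ← h2]
  apply integral_congr_ae
  filter_upwards [hMf f] with x hx
  rw [hx]
  by_cases hxs : x ∈ s <;> simp [hxs]

theorem closure_ae (u : ℕ → fibreSpace) {f : fibreSpace} (hf : f ∈ closure (Set.range u)) :
    ∀ᵐ x ∂haarTwoAdic, ∀ j, (∀ n, ev j ((u n : ℤ_[2] → seqHilbert) x) = 0) →
      ev j ((f : ℤ_[2] → seqHilbert) x) = 0 := by
  obtain ⟨w, hw, hlim⟩ := mem_closure_iff_seq_limit.1 hf
  have h1 := tendstoInMeasure_of_tendsto_Lp hlim
  obtain ⟨ns, -, h2⟩ := h1.exists_seq_tendsto_ae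
  filter_upwards [h2] with x hx j hj
  have h3 := ((ev j).continuous.tendsto _).comp hx
  have h4 : (ev j) ∘ (fun i => (w (ns i) : ℤ_[2] → seqHilbert) x) = fun _ => 0 := by
    funext i
    obtain ⟨n, hn⟩ := hw (ns i)
    simp only [Function.comp_apply, ← hn, hj]
  rw [h4] at h3
  exact tendsto_nhds_unique h3 tendsto_const_nhds

theorem pow_ae (Sfib : ℤ_[2] → (seqHilbert →L[ℂ] seqHilbert)) (S : fibreSpace →L[ℂ] fibreSpace)
    (hS : ∀ f : fibreSpace, ∀ᵐ x ∂haarTwoAdic,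
      (S f : ℤ_[2] → seqHilbert) x = Sfib x ((f : ℤ_[2] → seqHilbert) x)) (k : ℕ) (f : fibreSpace) :
    ∀ᵐ x ∂haarTwoAdic,
      ((S ^ k) f : ℤ_[2] → seqHilbert) x = (Sfib x ^ k) ((f : ℤ_[2] → seqHilbert) x) := by
  induction k with
  | zero => exact Eventually.of_forall fun x => rfl
  | succ k ih =>
    filter_upwards [ih, hS ((S ^ k) f)] with x h1 h2
    rw [pow_succ', pow_succ']
    change (S ((S ^ k) f) : ℤ_[2] → seqHilbert) x = Sfib x ((Sfib x ^ k) _)
    rw [h2, h1]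

theorem fibre_step (A : seqHilbert →L[ℂ] seqHilbert)
    (hA : ∀ W : Submodule ℂ seqHilbert, IsClosed (W : Set seqHilbert) →
        (∀ v ∈ W, A v ∈ W) → (W = ⊥ ∨ W = ⊤ ∨ ∃ h : ℤ, W = tailSpace h))
    (g v : seqHilbert) (hv : ∀ k : ℕ, ⟪g, (A ^ k) v⟫_ℂ = 0) {j h : ℤ} (hj : j ≤ h)
    (hvj : ev j v ≠ 0) : ev h g = 0 := by
  let K : Submodule ℂ seqHilbert :=
    ⨅ k : ℕ, LinearMap.ker (((innerSL ℂ g).comp (A ^ k) : seqHilbert →L[ℂ] ℂ) : seqHilbert →ₗ[ℂ] ℂ)
  have hK : ∀ w, w ∈ K ↔ ∀ k : ℕ, ⟪g, (A ^ k) w⟫_ℂ = 0 := by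
    intro w; simp only [K, Submodule.mem_iInf, LinearMap.mem_ker]; rfl
  have hcl : IsClosed (K : Set seqHilbert) := by
    have : (K : Set seqHilbert) = ⋂ k : ℕ, {w | ⟪g, (A ^ k) w⟫_ℂ = 0} := by
      ext w; simp [hK]
    rw [this]
    exact isClosed_iInter fun k => isClosed_eq (by fun_prop) continuous_const
  have hinv : ∀ w ∈ K, A w ∈ K := by
    intro w hw
    rw [hK] at hw ⊢
    intro k
    have := hw (k + 1)
    rwa [pow_succ] at this
  have hvK : v ∈ K := (hK v).2 hv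
  have hb : basisVec h ∈ K := by
    rcases hA K hcl hinv with h0 | h0 | ⟨h', h0⟩
    · rw [h0, Submodule.mem_bot] at hvK
      exact absurd (by rw [hvK, map_zero]) hvj
    · rw [h0]; trivial
    · rw [h0] at hvK ⊢
      apply basis_mem_tail
      by_contra hlt
      exact hvj (ev_tail (by omega) hvK)
  have h1 := (hK _).1 hb 0
  simp only [pow_zero, one_apply_eq_self] at h1
  change ⟪basisVec h, g⟫_ℂ = 0
  rw [← inner_conj_symm, h1, map_zero]

/-- Transitivity (last clause of S0150). -/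
theorem trans (b : ℤ → ℤ_[2] → ℝ) (Sfib Vfib : ℤ_[2] → (seqHilbert →L[ℂ] seqHilbert))
    (S V : fibreSpace →L[ℂ] fibreSpace)
    (hS : ∀ f : fibreSpace, ∀ᵐ x ∂haarTwoAdic,
      (S f : ℤ_[2] → seqHilbert) x = Sfib x ((f : ℤ_[2] → seqHilbert) x))
    (huni : ∀ x, ∀ W : Submodule ℂ seqHilbert, IsClosed (W : Set seqHilbert) →
        (∀ v ∈ W, Sfib x v ∈ W) → (W = ⊥ ∨ W = ⊤ ∨ ∃ h : ℤ, W = tailSpace h))
    (hVf : ∀ x j, Vfib x (basisVec j) = (b j x : ℂ) • basisVec (j - 1))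
    (hV : ∀ f : fibreSpace, ∀ᵐ x ∂haarTwoAdic,
        (V f : ℤ_[2] → seqHilbert) (x + 1) = Vfib x ((f : ℤ_[2] → seqHilbert) x))
    (hb : ∀ᵐ x ∂haarTwoAdic, ∀ j, 0 < b j x)
    (W : Submodule ℂ fibreSpace) (hW : IsClosed (W : Set fibreSpace))
    (hWS : ∀ f ∈ W, S f ∈ W) (hWV : ∀ f ∈ W, V f ∈ W)
    (hM : ∀ g : ℤ_[2] → ℂ, Measurable g → (∃ C : ℝ, ∀ x, ‖g x‖ ≤ C) →
          ∀ f ∈ W, ∀ f' : fibreSpace,
            (∀ᵐ x ∂haarTwoAdic, (f' : ℤ_[2] → seqHilbert) x = g x • (f : ℤ_[2] → seqHilbert) x) → f' ∈ W) :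
    W = ⊥ ∨ W = ⊤ := by
  have hne : Nonempty W := ⟨0⟩
  let u : ℕ → fibreSpace := fun n => (TopologicalSpace.denseSeq W n : fibreSpace)
  have huW : ∀ n, u n ∈ W := fun n => (TopologicalSpace.denseSeq W n).2
  have hden : ∀ f ∈ W, f ∈ closure (Set.range u) := by
    intro f hf
    have h1 : (⟨f, hf⟩ : W) ∈ closure (Set.range (TopologicalSpace.denseSeq W)) :=
      TopologicalSpace.denseRange_denseSeq W _
    have h2 := image_closure_subset_closure_image (f := ((↑) : W → fibreSpace))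
      continuous_subtype_val ⟨_, h1, rfl⟩
    rwa [← Set.range_comp] at h2
  let E : ℤ → Set ℤ_[2] := fun h => {x | ∃ j, j ≤ h ∧ ∃ n, ev j ((u n : ℤ_[2] → seqHilbert) x) ≠ 0}
  have hEm : ∀ h, MeasurableSet (E h) := by
    intro h
    have : E h = ⋃ j : ℤ, ⋃ n : ℕ, ⋃ _ : j ≤ h,
        (fun x => ev j ((u n : ℤ_[2] → seqHilbert) x)) ⁻¹' ({0}ᶜ) := by
      ext x; simp [E]
    rw [this]
    refine MeasurableSet.iUnion fun j => MeasurableSet.iUnion fun n => MeasurableSet.iUnion fun _ => ?_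
    have hm : Measurable (fun x => ev j ((u n : ℤ_[2] → seqHilbert) x)) :=
      ((ev j).continuous.comp_stronglyMeasurable (Lp.stronglyMeasurable (u n))).measurable
    exact hm (measurableSet_singleton 0).compl
  have hmono : ∀ h h', h ≤ h' → E h ⊆ E h' := by
    rintro h h' hh x ⟨j, hj, hx⟩
    exact ⟨j, hj.trans hh, hx⟩
  have hmp := ergodic_odo.toMeasurePreserving
  have hstep : ∀ᵐ x ∂haarTwoAdic, ∀ h, x ∈ E h → x + 1 ∈ E (h - 1) := by
    have h1 : ∀ᵐ x ∂haarTwoAdic, ∀ n,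
        (V (u n) : ℤ_[2] → seqHilbert) (x + 1) = Vfib x ((u n : ℤ_[2] → seqHilbert) x) :=
      ae_all_iff.2 fun n => hV (u n)
    have h2 := hmp.quasiMeasurePreserving.ae
      (ae_all_iff.2 fun n => closure_ae u (hden _ (hWV _ (huW n))))
    filter_upwards [h1, h2, hb] with x h1 h2 h3 h ⟨j, hj, n, hx⟩
    refine ⟨j - 1, by omega, ?_⟩
    by_contra hcon
    push Not at hcon
    have h4 := h2 n (j - 1) hcon
    rw [h1 n, ev_V (Vfib x) (fun i => (b i x : ℂ)) (hVf x)] at h4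
    rcases mul_eq_zero.1 h4 with h5 | h5
    · exact (h3 j).ne' (by exact_mod_cast h5)
    · exact hx h5
  have herg : ∀ h, E h =ᵐ[haarTwoAdic] (∅ : Set ℤ_[2]) ∨ E h =ᵐ[haarTwoAdic] (Set.univ : Set ℤ_[2]) := by
    intro h
    apply ergodic_odo.ae_empty_or_univ_of_ae_le_preimage (hEm h).nullMeasurableSet
    filter_upwards [hstep] with x hx hxE
    exact hmono _ _ (by omega) (hx h hxE)
  by_cases hall : ∀ h, ∀ᵐ x ∂haarTwoAdic, x ∈ E h
  · right
    have : CompleteSpace W := hW.completeSpace_coe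
    rw [← Submodule.orthogonal_eq_bot_iff, eq_bot_iff]
    intro g hg
    rw [Submodule.mem_bot]
    apply Lp.ext
    have h1 : ∀ᵐ x ∂haarTwoAdic, ∀ n, ∀ k : ℕ,
        ⟪(g : ℤ_[2] → seqHilbert) x, (Sfib x ^ k) ((u n : ℤ_[2] → seqHilbert) x)⟫_ℂ = 0 := by
      refine ae_all_iff.2 fun n => ae_all_iff.2 fun k => ?_
      have hk : (S ^ k) (u n) ∈ W := by
        induction k with
        | zero => exact huW n
        | succ k ih => rw [pow_succ']; exact hWS _ ih
      filter_upwards [orth_ae W hM hg hk, pow_ae Sfib S hS k (u n)] with x h1 h2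
      rwa [h2] at h1
    filter_upwards [h1, ae_all_iff.2 hall, Lp.coeFn_zero seqHilbert 2 haarTwoAdic] with x h1 h2 h3
    rw [h3]
    apply lp.ext
    funext h
    obtain ⟨j, hj, n, hx⟩ := h2 h
    have := fibre_step (Sfib x) (huni x) _ _ (h1 n) hj hx
    rw [ev_apply] at this
    simpa using this
  · left
    push Not at hall
    obtain ⟨h0, hh0⟩ := hall
    have hnull0 : ∀ᵐ x ∂haarTwoAdic, x ∉ E h0 := by
      rcases herg h0 with h | h
      · filter_upwards [h] with x hx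
        have : (x ∈ E h0) = (x ∈ (∅ : Set ℤ_[2])) := hx
        simpa using this
      · exfalso
        apply hh0
        filter_upwards [h] with x hx
        have : (x ∈ E h0) = (x ∈ (Set.univ : Set ℤ_[2])) := hx
        simpa using this
    have hup : ∀ k : ℕ, ∀ᵐ x ∂haarTwoAdic, x ∉ E (h0 + k) := by
      intro k
      induction k with
      | zero => simpa using hnull0
      | succ k ih =>
        filter_upwards [hstep, hmp.quasiMeasurePreserving.ae ih] with x h1 h2 h3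
        apply h2
        have := h1 _ h3
        have e : h0 + ((k + 1 : ℕ) : ℤ) - 1 = h0 + k := by push_cast; ring
        rwa [e] at this
    rw [eq_bot_iff]
    intro f hf
    rw [Submodule.mem_bot]
    apply Lp.ext
    filter_upwards [closure_ae u (hden f hf), ae_all_iff.2 hup,
      Lp.coeFn_zero seqHilbert 2 haarTwoAdic] with x h1 h2 h3
    rw [h3]
    apply lp.ext
    funext j
    have := h1 j (fun n => by
      by_contra hcon
      exact h2 (j - h0).toNat ⟨j, by omega, n, hcon⟩)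
    rw [ev_apply] at this
    simpa using this

end Crest.Agent.R113S.Trans
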