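import Crest.Agent.R113S.Op
import Crest.Agent.R113S.Trans

/-! Row 113, S0150: assembly, from the fibre unicellularity. -/

set_option autoImplicit false

namespace Crest.Agent.R113S

open Finset Filter Topology MeasureTheory Crest.AnalysisR.TwoAdic

attribute [local instance] borelTwoAdic borelSpace_twoAdic

/-- unicellularity of the fibre shifts -/
def UniStmt : Prop :=
  ∀ (a : ℤ → ℝ), (∀ i : ℤ, 10 * |(i : ℝ)| ≤ a i) → (∀ i : ℤ, a i ≤ 20 * |(i : ℝ)| + 30) →
    ∀ S : seqHilbert →L[ℂ] seqHilbert,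
      (∀ j, S (basisVec j) = ((Real.exp (-a j) : ℝ) : ℂ) • basisVec (j + 1)) →
      ∀ W : Submodule ℂ seqHilbert, IsClosed (W : Set seqHilbert) →
        ((∀ v ∈ W, S v ∈ W) ↔ (W = ⊥ ∨ W = ⊤ ∨ ∃ h : ℤ, W = tailSpace h))

theorem closure_tail (A : seqHilbert →L[ℂ] seqHilbert) (c : ℤ → ℝ) (hc : ∀ j, 0 < c j)
    (hA : ∀ j, A (basisVec j) = (c j : ℂ) • basisVec (j - 1)) (h : ℤ) :
    closure (A '' (tailSpace h : Set seqHilbert)) = (tailSpace (h - 1) : Set seqHilbert) := by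
  apply Set.Subset.antisymm
  · refine closure_minimal ?_ (Submodule.isClosed_topologicalClosure _)
    have : tailSpace h ≤ (tailSpace (h - 1)).comap (A : seqHilbert →ₗ[ℂ] seqHilbert) := by
      refine Submodule.topologicalClosure_minimal _ ?_
        ((Submodule.isClosed_topologicalClosure _).preimage A.continuous)
      rw [Submodule.span_le]
      rintro _ ⟨j, rfl⟩
      show A (basisVec j) ∈ tailSpace (h - 1)
      rw [hA]
      exact Submodule.smul_mem _ _ (Trans.basis_mem_tail (by have := j.2; omega))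
    rintro _ ⟨v, hv, rfl⟩
    exact this hv
  · have : Submodule.span ℂ (Set.range fun j : {j : ℤ // h - 1 ≤ j} => basisVec (j : ℤ)) ≤
        (tailSpace h).map (A : seqHilbert →ₗ[ℂ] seqHilbert) := by
      rw [Submodule.span_le]
      rintro _ ⟨j, rfl⟩
      refine ⟨((c (j + 1) : ℂ))⁻¹ • basisVec (j + 1), Submodule.smul_mem _ _
        (Trans.basis_mem_tail (by have := j.2; omega)), ?_⟩
      show A _ = _
      rw [map_smul, hA, smul_smul, inv_mul_cancel₀ (by exact_mod_cast (hc _).ne'), one_smul,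
        add_sub_cancel_right]
    exact closure_mono this

theorem closure_range (A : seqHilbert →L[ℂ] seqHilbert) (c : ℤ → ℝ) (hc : ∀ j, 0 < c j)
    (hA : ∀ j, A (basisVec j) = (c j : ℂ) • basisVec (j - 1)) :
    closure (Set.range A) = Set.univ := by
  have := eq_top_of_basis (LinearMap.range (A : seqHilbert →ₗ[ℂ] seqHilbert)).topologicalClosure
    (Submodule.isClosed_topologicalClosure _) fun j => Submodule.le_topologicalClosure _
      ⟨((c (j + 1) : ℂ))⁻¹ • basisVec (j + 1), by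
        show A _ = _
        rw [map_smul, hA, smul_smul, inv_mul_cancel₀ (by exact_mod_cast (hc _).ne'), one_smul,
          add_sub_cancel_right]⟩
  exact congrArg (fun W : Submodule ℂ seqHilbert => (W : Set seqHilbert)) this

theorem main (hU : UniStmt) :
    ∃ (β b : ℤ → ℤ_[2] → ℝ) (Sfib Vfib : ℤ_[2] → (seqHilbert →L[ℂ] seqHilbert))
      (S V : fibreSpace →L[ℂ] fibreSpace),
      (∀ j, Measurable (β j)) ∧ (∀ j x, 0 < β j x) ∧
      (∀ x j, Sfib x (basisVec j) = (β j x : ℂ) • basisVec (j + 1)) ∧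
      (∀ f : fibreSpace, ∀ᵐ x ∂haarTwoAdic, (S f : ℤ_[2] → seqHilbert) x = Sfib x ((f : ℤ_[2] → seqHilbert) x)) ∧
      (∀ x, ∀ W : Submodule ℂ seqHilbert, IsClosed (W : Set seqHilbert) →
        ((∀ v ∈ W, Sfib x v ∈ W) ↔ (W = ⊥ ∨ W = ⊤ ∨ ∃ h : ℤ, W = tailSpace h))) ∧
      S ≠ 0 ∧ ‖S‖ = Real.exp (-10) ∧
      (∀ n : ℕ, 1 ≤ n → ‖S ^ n‖ ≤ Real.exp (-10 * (((n + 1) ^ 2 / 4 : ℕ) : ℝ))) ∧
      ‖V‖ ≤ 1 ∧ V * S = S * V ∧
      (∀ j, Measurable (b j)) ∧ (∀ j x, 0 ≤ b j x ∧ b j x ≤ 1) ∧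
      (∀ x j, Vfib x (basisVec j) = (b j x : ℂ) • basisVec (j - 1)) ∧
      (∀ f : fibreSpace, ∀ᵐ x ∂haarTwoAdic,
        (V f : ℤ_[2] → seqHilbert) (x + 1) = Vfib x ((f : ℤ_[2] → seqHilbert) x)) ∧
      (∃ N : Set ℤ_[2], haarTwoAdic N = 0 ∧ ∀ x, x ∉ N →
        (∀ j, 0 < b j x) ∧
        (∀ h : ℤ, closure (Vfib x '' (tailSpace h : Set seqHilbert)) = (tailSpace (h - 1) : Set seqHilbert)) ∧
        closure (Set.range (Vfib x)) = Set.univ) ∧
      (∀ W : Submodule ℂ fibreSpace, IsClosed (W : Set fibreSpace) →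
        (∀ f ∈ W, S f ∈ W) → (∀ f ∈ W, V f ∈ W) →
        (∀ g : ℤ_[2] → ℂ, Measurable g → (∃ C : ℝ, ∀ x, ‖g x‖ ≤ C) →
          ∀ f ∈ W, ∀ f' : fibreSpace,
            (∀ᵐ x ∂haarTwoAdic, (f' : ℤ_[2] → seqHilbert) x = g x • (f : ℤ_[2] → seqHilbert) x) → f' ∈ W) →
        W = ⊥ ∨ W = ⊤) := by
  obtain ⟨Sf, hSf⟩ : ∃ Sf : ℤ_[2] → seqHilbert →L[ℂ] seqHilbert,
      Sf = fun x => ws (fun j => be j x) (fun j => be_le_one j x) 1 := ⟨_, rfl⟩
  obtain ⟨Vf, hVf⟩ : ∃ Vf : ℤ_[2] → seqHilbert →L[ℂ] seqHilbert,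
      Vf = fun x => ws (fun j => bb j x) (fun j => bb_le_one j x) (-1) := ⟨_, rfl⟩
  obtain ⟨S, hS⟩ := exists_fib Sf (fun x v => hSf ▸ norm_ws _ _ v)
    (fun f hf => hSf ▸ aesm_ws be (fun x j => be_le_one j x) measurable_be 1 f hf)
  obtain ⟨V, hV1, hV⟩ := exists_fib' Vf (fun x v => hVf ▸ norm_ws _ _ v)
    (fun f hf => hVf ▸ aesm_ws bb (fun x j => bb_le_one j x) measurable_bb (-1) f hf)
  have hSb : ∀ x j, Sf x (basisVec j) = (be j x : ℂ) • basisVec (j + 1) := fun x j => by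
    rw [hSf]; exact ws_basis _ 1 j
  have hVb : ∀ x j, Vf x (basisVec j) = (bb j x : ℂ) • basisVec (j - 1) := fun x j => by
    rw [hVf]; exact ws_basis _ (-1) j
  have huni := fun x => hU (fun j => aa j x) (fun j => aa_ge' j x) (fun j => aa_le j x) (Sf x) (hSb x)
  have hpow : ∀ n : ℕ, ‖S ^ n‖ ≤ Real.exp (-10 * (((n + 1) ^ 2 / 4 : ℕ) : ℝ)) := by
    intro n
    refine ContinuousLinearMap.opNorm_le_bound _ (Real.exp_pos _).le fun f => ?_
    refine Lp.norm_le_mul_norm_of_ae_le_mul ?_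
    filter_upwards [fib_pow hS n f] with x hx
    rw [hx, hSf]
    refine norm_le_shift _ _ n (Real.exp_pos _).le fun i => ?_
    rw [ws_pow, norm_mul, Complex.norm_real, Real.norm_eq_abs,
      abs_of_nonneg (prod_nonneg fun t _ => (be_pos _ _).le)]
    exact mul_le_mul_of_nonneg_right (prod_be _ _ _) (norm_nonneg _)
  have hb1 : ∀ j, ‖basisVec j‖ = 1 := fun j => by
    rw [basisVec, lp.norm_single (by norm_num), norm_one]
  have hnorm : ‖S‖ = Real.exp (-10) := by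
    apply le_antisymm
    · simpa using hpow 1
    · have h1 : S (Lp.const 2 haarTwoAdic (basisVec 0)) =
          Lp.const 2 haarTwoAdic (((Real.exp (-10) : ℝ) : ℂ) • basisVec 1) := by
        ext1
        filter_upwards [hS (Lp.const 2 haarTwoAdic (basisVec 0)),
          Lp.coeFn_const 2 haarTwoAdic (basisVec 0),
          Lp.coeFn_const 2 haarTwoAdic (((Real.exp (-10) : ℝ) : ℂ) • basisVec 1)] with x h1 h2 h3
        rw [h1, h2, h3, Function.const_apply, Function.const_apply, hSb, be, aa_zero, zero_add]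
      have h2 := S.le_opNorm (Lp.const 2 haarTwoAdic (basisVec 0))
      rw [h1, Lp.norm_const' _ _ _ (by norm_num) (by norm_num),
        Lp.norm_const' _ _ _ (by norm_num) (by norm_num), norm_smul, hb1, hb1, Complex.norm_real,
        Real.norm_eq_abs, abs_of_pos (Real.exp_pos _)] at h2
      simpa using h2
  refine ⟨be, bb, Sf, Vf, S, V, measurable_be, be_pos, hSb, hS, huni, ?_, hnorm, fun n _ => hpow n,
    hV1, ?_, measurable_bb, fun j x => ⟨(bb_pos j x).le, bb_le j x⟩, hVb, hV,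
    ⟨∅, measure_empty, fun x _ => ⟨fun j => bb_pos j x,
      closure_tail _ _ (fun j => bb_pos j x) (hVb x), closure_range _ _ (fun j => bb_pos j x) (hVb x)⟩⟩,
    Trans.trans bb Sf Vf S V hS (fun x W hW => (huni x W hW).1) hVb hV
      (Eventually.of_forall fun x j => bb_pos j x)⟩
  · intro h
    rw [h, norm_zero] at hnorm
    exact (Real.exp_pos _).ne hnorm
  · ext1 f
    ext1
    refine ae_of_add (P := fun y => ((V * S) f : ℤ_[2] → seqHilbert) y =
      ((S * V) f : ℤ_[2] → seqHilbert) y) 1 ?_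
    filter_upwards [hV (S f), hS f, ae_add 1 (hS (V f)), hV f, ae_ne] with x h1 h2 h3 h4 h5
    rw [mul_apply_eq_comp, mul_apply_eq_comp, h1, h2, h3, h4, hSf, hVf]
    ext i
    simp only [ws_apply, sub_neg_eq_add, add_sub_cancel_right, sub_add_cancel]
    rw [← mul_assoc, ← mul_assoc, ← Complex.ofReal_mul, ← Complex.ofReal_mul, be_bb h5]

end Crest.Agent.R113S
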