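import Crest.Agent.R113S.Wt

/-! Row 113, S0150: weighted shifts on `ℓ²(ℤ)` and their fibrewise action on `L²`. -/

set_option autoImplicit false

namespace Crest.Agent.R113S

open Finset Filter Topology MeasureTheory Crest.AnalysisR.TwoAdic

attribute [local instance] borelTwoAdic borelSpace_twoAdic

theorem two_toReal : (0 : ℝ) < (2 : ENNReal).toReal := by norm_num

theorem summable_shift (f : seqHilbert) (d : ℤ) (M : ℝ) :
    HasSum (fun i => (M * ‖f (i - d)‖) ^ (2 : ENNReal).toReal) ((M * ‖f‖) ^ (2 : ENNReal).toReal) := by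
  have h := ((Equiv.subRight d).hasSum_iff.2 (lp.hasSum_norm two_toReal f)).mul_left (M ^ 2)
  simp only [ENNReal.toReal_ofNat, Real.rpow_ofNat, mul_pow] at h ⊢
  exact h

theorem memℓp_shift (f : seqHilbert) (d : ℤ) (M : ℝ) (g : ℤ → ℂ)
    (h : ∀ i, ‖g i‖ ≤ M * ‖f (i - d)‖) : Memℓp g 2 :=
  memℓp_gen ((summable_shift f d M).summable.of_nonneg_of_le (fun _ => by positivity)
    fun i => Real.rpow_le_rpow (norm_nonneg _) (h i) two_toReal.le)

theorem norm_le_shift (f g : seqHilbert) (d : ℤ) {M : ℝ} (hM : 0 ≤ M)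
    (h : ∀ i, ‖g i‖ ≤ M * ‖f (i - d)‖) : ‖g‖ ≤ M * ‖f‖ := by
  refine lp.norm_le_of_tsum_le two_toReal (by positivity) ?_
  rw [← (summable_shift f d M).tsum_eq]
  exact (lp.hasSum_norm two_toReal g).summable.tsum_le_tsum
    (fun i => Real.rpow_le_rpow (norm_nonneg _) (h i) two_toReal.le) (summable_shift f d M).summable

theorem ws_bd {w : ℤ → ℝ} (hw : ∀ j, |w j| ≤ 1) (d : ℤ) (f : seqHilbert) (i : ℤ) :
    ‖(w (i - d) : ℂ) * f (i - d)‖ ≤ 1 * ‖f (i - d)‖ := by
  rw [norm_mul, Complex.norm_real, Real.norm_eq_abs]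
  exact mul_le_mul_of_nonneg_right (hw _) (norm_nonneg _)

/-- weighted shift -/
noncomputable def ws (w : ℤ → ℝ) (hw : ∀ j, |w j| ≤ 1) (d : ℤ) : seqHilbert →L[ℂ] seqHilbert :=
  LinearMap.mkContinuous
    { toFun := fun f => ⟨fun i => (w (i - d) : ℂ) * f (i - d), memℓp_shift f d 1 _ (ws_bd hw d f)⟩
      map_add' := fun f g => by ext i; simp [mul_add]
      map_smul' := fun c f => by ext i; simp [mul_left_comm] } 1
    (fun f => norm_le_shift f _ d zero_le_one (ws_bd hw d f))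

theorem ws_apply {w : ℤ → ℝ} (hw : ∀ j, |w j| ≤ 1) (d : ℤ) (f : seqHilbert) (i : ℤ) :
    ws w hw d f i = (w (i - d) : ℂ) * f (i - d) := rfl

theorem norm_ws {w : ℤ → ℝ} (hw : ∀ j, |w j| ≤ 1) (d : ℤ) (f : seqHilbert) :
    ‖ws w hw d f‖ ≤ 1 * ‖f‖ := norm_le_shift f _ d zero_le_one (ws_bd hw d f)

theorem basisVec_apply (j i : ℤ) : basisVec j i = if i = j then 1 else 0 := by
  simp [basisVec, lp.single_apply, Pi.single_apply]

theorem ws_basis {w : ℤ → ℝ} (hw : ∀ j, |w j| ≤ 1) (d j : ℤ) :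
    ws w hw d (basisVec j) = (w j : ℂ) • basisVec (j + d) := by
  ext i
  rw [ws_apply, lp.coeFn_smul, Pi.smul_apply, basisVec_apply, basisVec_apply, smul_eq_mul]
  by_cases h : i = j + d
  · subst h; simp
  · rw [if_neg h, if_neg (by omega)]; simp

theorem ws_pow {w : ℤ → ℝ} (hw : ∀ j, |w j| ≤ 1) (n : ℕ) (f : seqHilbert) (i : ℤ) :
    (ws w hw 1 ^ n) f i = ((∏ t ∈ range n, w (i - n + t) : ℝ) : ℂ) * f (i - n) := by
  induction n generalizing i with
  | zero => simp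
  | succ n ih =>
    rw [pow_succ', mul_apply_eq_comp, ws_apply, ih, prod_range_succ]
    have e1 : i - 1 - n = i - (n + 1 : ℕ) := by push_cast; ring
    have e2 : i - (n + 1 : ℕ) + n = i - 1 := by push_cast; ring
    rw [e1, e2]; push_cast; ring

theorem hasSum_basis (f : seqHilbert) : HasSum (fun j => f j • basisVec j) f := by
  have h := lp.hasSum_single (E := fun _ : ℤ => ℂ) (p := 2) (by norm_num) f
  convert h using 2 with j
  rw [basisVec, ← lp.single_smul, smul_eq_mul, mul_one]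

theorem eq_top_of_basis (W : Submodule ℂ seqHilbert) (hW : IsClosed (W : Set seqHilbert))
    (h : ∀ j, basisVec j ∈ W) : W = ⊤ := by
  refine eq_top_iff.2 fun f _ => ?_
  exact hW.mem_of_tendsto (hasSum_basis f)
    (Eventually.of_forall fun s => W.sum_mem fun j _ => W.smul_mem _ (h j))

theorem aesm_ws (w : ℤ → ℤ_[2] → ℝ) (hw : ∀ x j, |w j x| ≤ 1) (hm : ∀ j, Measurable (w j)) (d : ℤ)
    (f : ℤ_[2] → seqHilbert) (hf : AEStronglyMeasurable f haarTwoAdic) :
    AEStronglyMeasurable (fun x => ws (fun j => w j x) (hw x) d (f x)) haarTwoAdic := by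
  have hs : ∀ x, Tendsto (fun s : Finset ℤ => ∑ j ∈ s, ((w (j - d) x : ℂ) * f x (j - d)) • basisVec j)
      atTop (𝓝 (ws (fun j => w j x) (hw x) d (f x))) := fun x => by
    have h := hasSum_basis (ws (fun j => w j x) (hw x) d (f x))
    simp only [ws_apply] at h
    exact h
  refine aestronglyMeasurable_of_tendsto_ae (atTop : Filter (Finset ℤ)) (fun s => ?_)
    (Eventually.of_forall hs)
  refine Finset.aestronglyMeasurable_fun_sum _ fun j _ => AEStronglyMeasurable.smul_const ?_ _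
  refine (Complex.measurable_ofReal.comp (hm _)).aestronglyMeasurable.mul ?_
  exact (lp.evalCLM ℂ (fun _ : ℤ => ℂ) 2 (j - d)).continuous.comp_aestronglyMeasurable hf

theorem exists_fib (K : ℤ_[2] → seqHilbert →L[ℂ] seqHilbert) (hK : ∀ x v, ‖K x v‖ ≤ 1 * ‖v‖)
    (hm : ∀ f : ℤ_[2] → seqHilbert, AEStronglyMeasurable f haarTwoAdic →
      AEStronglyMeasurable (fun x => K x (f x)) haarTwoAdic) :
    ∃ T : fibreSpace →L[ℂ] fibreSpace, ∀ f : fibreSpace, ∀ᵐ x ∂haarTwoAdic,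
      (T f : ℤ_[2] → seqHilbert) x = K x ((f : ℤ_[2] → seqHilbert) x) := by
  have hL : ∀ f : fibreSpace, MemLp (fun x => K x (f x)) 2 haarTwoAdic := fun f =>
    (Lp.memLp f).of_le_mul (hm _ (Lp.aestronglyMeasurable f)) (Eventually.of_forall fun x => hK x _)
  refine ⟨LinearMap.mkContinuous
    { toFun := fun f => (hL f).toLp _
      map_add' := fun f g => ?_
      map_smul' := fun c f => ?_ } 1 fun f => ?_, fun f => (hL f).coeFn_toLp⟩
  · ext1
    filter_upwards [(hL (f + g)).coeFn_toLp, (hL f).coeFn_toLp, (hL g).coeFn_toLp, Lp.coeFn_add f g,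
      Lp.coeFn_add ((hL f).toLp _) ((hL g).toLp _)] with x h1 h2 h3 h4 h5
    rw [h1, h5, h4, Pi.add_apply, Pi.add_apply, h2, h3, map_add]
  · ext1
    filter_upwards [(hL (c • f)).coeFn_toLp, (hL f).coeFn_toLp, Lp.coeFn_smul c f,
      Lp.coeFn_smul c ((hL f).toLp _)] with x h1 h2 h3 h4
    rw [h1, RingHom.id_apply, h4, h3, Pi.smul_apply, Pi.smul_apply, h2, map_smul]
  · refine Lp.norm_le_mul_norm_of_ae_le_mul ?_
    filter_upwards [(hL f).coeFn_toLp] with x h1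
    exact h1 ▸ hK x _

theorem ae_add {P : ℤ_[2] → Prop} (c : ℤ_[2]) (h : ∀ᵐ x ∂haarTwoAdic, P x) :
    ∀ᵐ x ∂haarTwoAdic, P (x + c) :=
  (measurePreserving_add_right haarTwoAdic c).quasiMeasurePreserving.ae h

theorem ae_of_add {P : ℤ_[2] → Prop} (c : ℤ_[2]) (h : ∀ᵐ x ∂haarTwoAdic, P (x + c)) :
    ∀ᵐ x ∂haarTwoAdic, P x := by
  simpa using ae_add (P := fun x => P (x + c)) (-c) h

theorem exists_fib' (K : ℤ_[2] → seqHilbert →L[ℂ] seqHilbert) (hK : ∀ x v, ‖K x v‖ ≤ 1 * ‖v‖)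
    (hm : ∀ f : ℤ_[2] → seqHilbert, AEStronglyMeasurable f haarTwoAdic →
      AEStronglyMeasurable (fun x => K x (f x)) haarTwoAdic) :
    ∃ T : fibreSpace →L[ℂ] fibreSpace, ‖T‖ ≤ 1 ∧ ∀ f : fibreSpace, ∀ᵐ x ∂haarTwoAdic,
      (T f : ℤ_[2] → seqHilbert) (x + 1) = K x ((f : ℤ_[2] → seqHilbert) x) := by
  obtain ⟨T, hT⟩ := exists_fib K hK hm
  have hp := measurePreserving_add_right haarTwoAdic (-1)
  refine ⟨(Lp.compMeasurePreservingₗᵢ ℂ _ hp).toContinuousLinearMap ∘L T, ?_, fun f => ?_⟩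
  · refine ContinuousLinearMap.opNorm_le_bound _ zero_le_one fun f => ?_
    rw [ContinuousLinearMap.comp_apply, LinearIsometry.coe_toContinuousLinearMap,
      LinearIsometry.norm_map]
    refine Lp.norm_le_mul_norm_of_ae_le_mul ?_
    filter_upwards [hT f] with x h1
    exact h1 ▸ hK x _
  · filter_upwards [hT f, ae_add 1 (Lp.coeFn_compMeasurePreserving (T f) hp)] with x h1 h2
    rw [← h1]
    refine h2.trans ?_
    simp

theorem fib_pow {K : ℤ_[2] → seqHilbert →L[ℂ] seqHilbert} {T : fibreSpace →L[ℂ] fibreSpace}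
    (hT : ∀ f : fibreSpace, ∀ᵐ x ∂haarTwoAdic,
      (T f : ℤ_[2] → seqHilbert) x = K x ((f : ℤ_[2] → seqHilbert) x)) (n : ℕ) (f : fibreSpace) :
    ∀ᵐ x ∂haarTwoAdic, ((T ^ n) f : ℤ_[2] → seqHilbert) x =
      (K x ^ n) ((f : ℤ_[2] → seqHilbert) x) := by
  induction n with
  | zero => simp
  | succ n ih =>
    filter_upwards [ih, hT ((T ^ n) f)] with x h1 h2
    rw [pow_succ', pow_succ', mul_apply_eq_comp, mul_apply_eq_comp, h2, h1]

end Crest.Agent.R113S
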