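import Crest.Prelude.Def_TwoAdicShift

/-! Row 113, S0150: the weights on the 2-adic odometer. -/

set_option autoImplicit false

namespace Crest.Agent.R113S

open Finset Filter Topology MeasureTheory Crest.AnalysisR.TwoAdic

attribute [local instance] borelTwoAdic borelSpace_twoAdic

theorem zmod_appr (k : ℕ) (x : ℤ_[2]) :
    PadicInt.toZModPow k x = ((x.appr k : ℕ) : ZMod (2 ^ k)) := rfl

theorem val_appr (k : ℕ) (x : ℤ_[2]) : (PadicInt.toZModPow k x).val = x.appr k := by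
  rw [zmod_appr, ZMod.val_cast_of_lt (PadicInt.appr_lt x k)]

theorem measurable_appr (k : ℕ) : Measurable (fun x : ℤ_[2] => x.appr k) := by
  refine IsLocallyConstant.continuous ?_ |>.measurable
  rw [IsLocallyConstant.iff_eventually_eq]
  intro x
  have hpos : (0 : ℝ) < ((2 : ℕ) : ℝ) ^ (-k : ℤ) := by positivity
  filter_upwards [Metric.closedBall_mem_nhds x hpos] with y hy
  rw [← val_appr, ← val_appr]
  congr 1
  rw [← sub_eq_zero, ← map_sub, ← RingHom.mem_ker, PadicInt.ker_toZModPow,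
    ← PadicInt.norm_le_pow_iff_mem_span_pow, ← dist_eq_norm]
  exact hy

theorem appr_succ {y : ℤ_[2]} (hy : y ≠ -1) :
    ∃ K, ∀ k, K ≤ k → (y + 1).appr k = y.appr k + 1 := by
  have h0 : 0 < ‖y + 1‖ := norm_pos_iff.2 (fun h => hy (eq_neg_of_add_eq_zero_left h))
  obtain ⟨K, hK⟩ := exists_pow_lt_of_lt_one h0 (by norm_num : (2 : ℝ)⁻¹ < 1)
  refine ⟨K, fun k hk => ?_⟩
  have h1 : PadicInt.toZModPow k (y + 1) = ((y.appr k + 1 : ℕ) : ZMod (2 ^ k)) := by
    rw [map_add, map_one, zmod_appr]; push_cast; rfl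
  rcases (Nat.succ_le_of_lt (PadicInt.appr_lt y k)).lt_or_eq with h | h
  · rw [← val_appr, h1, ZMod.val_cast_of_lt h]
  · exfalso
    rw [Nat.succ_eq_add_one] at h
    rw [h, ZMod.natCast_self, ← RingHom.mem_ker, PadicInt.ker_toZModPow,
      ← PadicInt.norm_le_pow_iff_mem_span_pow] at h1
    have h2 : ((2 : ℕ) : ℝ) ^ (-k : ℤ) = (2 : ℝ)⁻¹ ^ k := by
      rw [zpow_neg, zpow_natCast, inv_pow]; norm_num
    have h3 : (2 : ℝ)⁻¹ ^ k ≤ (2 : ℝ)⁻¹ ^ K := pow_le_pow_of_le_one (by norm_num) (by norm_num) hk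
    exact absurd ((h1.trans_eq h2).trans h3) (not_le.2 hK)

/-- the level used at index `i` -/
def kk (i : ℕ) : ℕ := Nat.log 2 (i / 2 + 1)

/-- one-sided exponents -/
noncomputable def al (i : ℕ) (y : ℤ_[2]) : ℝ := 20 * ((i : ℝ) - (y.appr (kk i) : ℕ)) + 10

theorem al_ge (i : ℕ) (y : ℤ_[2]) : 10 * (i : ℝ) + 10 ≤ al i y := by
  have h1 := PadicInt.appr_lt y (kk i)
  have h2 : 2 ^ kk i ≤ i / 2 + 1 := Nat.pow_log_le_self 2 (by omega)
  have h3 : 2 * y.appr (kk i) ≤ i := by omega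
  have h4 : 2 * ((y.appr (kk i) : ℕ) : ℝ) ≤ i := by exact_mod_cast h3
  unfold al; linarith

theorem al_le (i : ℕ) (y : ℤ_[2]) : al i y ≤ 20 * (i : ℝ) + 10 := by
  have : (0 : ℝ) ≤ ((y.appr (kk i) : ℕ) : ℝ) := by positivity
  unfold al; linarith

theorem al_zero (y : ℤ_[2]) : al 0 y = 10 := by
  have h1 := al_ge 0 y
  have h2 := al_le 0 y
  simp only [Nat.cast_zero] at h1 h2
  linarith

theorem measurable_al (i : ℕ) : Measurable (al i) := by
  unfold al
  have := (measurable_from_top (f := (Nat.cast : ℕ → ℝ))).comp (measurable_appr (kk i))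
  exact ((measurable_const.sub this).const_mul _).add_const _

theorem al_step {y : ℤ_[2]} (hy : y ≠ -1) : ∃ I, ∀ i, I ≤ i → al (i + 1) (y + 1) ≤ al i y := by
  obtain ⟨K, hK⟩ := appr_succ hy
  refine ⟨2 * 2 ^ K, fun i hi => ?_⟩
  have h1 : K ≤ kk i := Nat.le_log_of_pow_le (by norm_num) (by omega)
  have h2 : kk i ≤ kk (i + 1) := Nat.log_mono_right (by omega)
  have h3 := PadicInt.appr_mono (y + 1) h2
  rw [hK _ h1] at h3
  have h4 : ((y.appr (kk i) : ℕ) : ℝ) + 1 ≤ (((y + 1).appr (kk (i + 1)) : ℕ) : ℝ) := by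
    exact_mod_cast h3
  unfold al; push_cast; linarith

/-- the exponents of the weights -/
noncomputable def aa (j : ℤ) (x : ℤ_[2]) : ℝ :=
  if 0 ≤ j then al j.toNat (-1 - x) else al (-1 - j).toNat x

theorem measurable_aa (j : ℤ) : Measurable (aa j) := by
  unfold aa
  split_ifs
  · exact (measurable_al _).comp (continuous_const.sub continuous_id).measurable
  · exact measurable_al _

theorem aa_zero (x : ℤ_[2]) : aa 0 x = 10 := by simp [aa, al_zero]

theorem aa_ge (j : ℤ) (x : ℤ_[2]) : 10 * |(j : ℝ) + 1 / 2| + 5 ≤ aa j x := by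
  unfold aa
  split_ifs with h
  · have h1 := al_ge j.toNat (-1 - x)
    have h2 : ((j.toNat : ℕ) : ℝ) = j := by exact_mod_cast Int.toNat_of_nonneg h
    have h3 : (0 : ℝ) ≤ j := by exact_mod_cast h
    rw [abs_of_nonneg (by linarith)]; linarith
  · have h1 := al_ge (-1 - j).toNat x
    have h2 : (((-1 - j).toNat : ℕ) : ℝ) = -1 - j := by
      exact_mod_cast Int.toNat_of_nonneg (by omega : 0 ≤ -1 - j)
    have h3 : (j : ℝ) ≤ -1 := by exact_mod_cast (by omega : j ≤ -1)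
    rw [abs_of_nonpos (by linarith)]; linarith

theorem aa_le (j : ℤ) (x : ℤ_[2]) : aa j x ≤ 20 * |(j : ℝ)| + 30 := by
  unfold aa
  split_ifs with h
  · have h1 := al_le j.toNat (-1 - x)
    have h2 : ((j.toNat : ℕ) : ℝ) = j := by exact_mod_cast Int.toNat_of_nonneg h
    linarith [le_abs_self (j : ℝ)]
  · have h1 := al_le (-1 - j).toNat x
    have h2 : (((-1 - j).toNat : ℕ) : ℝ) = -1 - j := by
      exact_mod_cast Int.toNat_of_nonneg (by omega : 0 ≤ -1 - j)
    linarith [neg_le_abs (j : ℝ)]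

theorem aa_ge' (j : ℤ) (x : ℤ_[2]) : 10 * |(j : ℝ)| ≤ aa j x := by
  have h1 := aa_ge j x
  have h2 : |(j : ℝ)| ≤ |(j : ℝ) + 1 / 2| + 1 / 2 := by
    have := abs_sub ((j : ℝ) + 1 / 2) (1 / 2)
    rw [add_sub_cancel_right, abs_of_pos (by norm_num : (0 : ℝ) < 1 / 2)] at this
    exact this
  linarith

theorem aa_ge_ten (j : ℤ) (x : ℤ_[2]) : 10 ≤ aa j x := by
  have h1 := aa_ge j x
  have h2 : 1 / 2 ≤ |(j : ℝ) + 1 / 2| := by
    rcases le_or_gt 0 j with h | h
    · have h3 : (0 : ℝ) ≤ j := by exact_mod_cast h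
      linarith [le_abs_self ((j : ℝ) + 1 / 2)]
    · have h3 : (j : ℝ) ≤ -1 := by exact_mod_cast (by omega : j ≤ -1)
      linarith [neg_le_abs ((j : ℝ) + 1 / 2)]
  linarith

theorem sum_aa (j : ℤ) (n : ℕ) (x : ℤ_[2]) :
    10 * (((n + 1) ^ 2 / 4 : ℕ) : ℝ) ≤ ∑ t ∈ range n, aa (j + t) x := by
  have h1 : ∀ n : ℕ, 5 * ((((j + n) * |j + n| + n - j * |j| : ℤ)) : ℝ) ≤
      ∑ t ∈ range n, aa (j + t) x := by
    intro n
    induction n with
    | zero => simp
    | succ n ih =>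
      rw [sum_range_succ]
      have h2 := aa_ge (j + n) x
      have h3 : (((j + (n + 1 : ℕ)) * |j + (n + 1 : ℕ)| + (n + 1 : ℕ) - j * |j| : ℤ) : ℝ) =
          (((j + n) * |j + n| + n - j * |j| : ℤ) : ℝ) + (2 * |((j + n : ℤ) : ℝ) + 1 / 2| + 1) := by
        rcases le_or_gt 0 (j + n) with h | h
        · have h4 : (0 : ℝ) ≤ ((j + n : ℤ) : ℝ) := by exact_mod_cast h
          rw [abs_of_nonneg h, abs_of_nonneg (by push_cast; omega : (0 : ℤ) ≤ j + (n + 1 : ℕ)),
            abs_of_nonneg (by linarith : (0 : ℝ) ≤ ((j + n : ℤ) : ℝ) + 1 / 2)]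
          push_cast; ring
        · have h4 : ((j + n : ℤ) : ℝ) ≤ -1 := by exact_mod_cast (by omega : j + n ≤ -1)
          rw [abs_of_neg h, abs_of_nonpos (by push_cast; omega : j + (n + 1 : ℕ) ≤ 0),
            abs_of_nonpos (by linarith : ((j + n : ℤ) : ℝ) + 1 / 2 ≤ 0)]
          push_cast; ring
      rw [h3]; linarith
  have h4 : (n : ℤ) ^ 2 ≤ 2 * ((j + n) * |j + n| - j * |j|) := by
    have hn : (0 : ℤ) ≤ n := Int.natCast_nonneg n
    rcases le_or_gt 0 j with h | h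
    · rw [abs_of_nonneg h, abs_of_nonneg (by omega)]; nlinarith
    · rcases le_or_gt 0 (j + n) with h' | h'
      · rw [abs_of_neg h, abs_of_nonneg h']; nlinarith [sq_nonneg (2 * j + n)]
      · rw [abs_of_neg h, abs_of_neg h']; nlinarith
  have hev : Even ((j + n) * |j + n| + n - j * |j|) := by
    have e : ∀ u : ℤ, Even (u * |u| + u) := fun u => by
      rcases abs_cases u with ⟨h, -⟩ | ⟨h, -⟩ <;> rw [h]
      · have := Int.even_mul_succ_self u
        rwa [mul_add, mul_one] at this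
      · have := (Int.even_mul_pred_self u).neg
        rwa [show -(u * (u - 1)) = u * -u + u by ring] at this
    have := (e (j + n)).sub (e j)
    rwa [show (j + n) * |j + n| + (j + n) - (j * |j| + j) = (j + n) * |j + n| + n - j * |j| by ring]
      at this
  obtain ⟨s, hs⟩ := hev
  have h5 : ((((n + 1) ^ 2 / 4 : ℕ) : ℤ)) * 4 ≤ ((n : ℤ) + 1) ^ 2 := by
    exact_mod_cast Nat.div_mul_le_self ((n + 1) ^ 2) 4
  have h6 : 2 * ((((n + 1) ^ 2 / 4 : ℕ) : ℤ)) ≤ (j + n) * |j + n| + n - j * |j| := by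
    have : ((n : ℤ) + 1) ^ 2 = n ^ 2 + 2 * n + 1 := by ring
    omega
  have h7 : 2 * (((n + 1) ^ 2 / 4 : ℕ) : ℝ) ≤ (((j + n) * |j + n| + n - j * |j| : ℤ) : ℝ) := by
    generalize (n + 1) ^ 2 / 4 = q at h6
    generalize (j + n) * |j + n| + n - j * |j| = w at h6
    exact_mod_cast h6
  linarith [h1 n]

/-- increments of the exponents of the intertwiner -/
noncomputable def ee (j : ℤ) (x : ℤ_[2]) : ℝ := aa (j - 1) (x + 1) - aa j x

/-- unnormalised exponents of the intertwiner -/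
noncomputable def cc (j : ℤ) (x : ℤ_[2]) : ℝ :=
  ∑ i ∈ range j.toNat, ee i x - ∑ i ∈ range (-j).toNat, ee (-1 - i) x

theorem measurable_ee (j : ℤ) : Measurable (ee j) :=
  ((measurable_aa _).comp (continuous_id.add continuous_const).measurable).sub (measurable_aa _)

theorem measurable_cc (j : ℤ) : Measurable (cc j) :=
  (Finset.measurable_sum _ fun _ _ => measurable_ee _).sub
    (Finset.measurable_sum _ fun _ _ => measurable_ee _)

theorem cc_succ (j : ℤ) (x : ℤ_[2]) : cc (j + 1) x = cc j x + ee j x := by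
  unfold cc
  rcases le_or_gt 0 j with h | h
  · obtain ⟨n, rfl⟩ := Int.eq_ofNat_of_zero_le h
    rw [show ((n : ℤ) + 1).toNat = n + 1 by omega, show (-((n : ℤ) + 1)).toNat = 0 by omega,
      show (-(n : ℤ)).toNat = 0 by omega, Int.toNat_natCast, sum_range_succ]
    ring
  · obtain ⟨n, rfl⟩ : ∃ n : ℕ, j = -1 - n := ⟨(-1 - j).toNat, by omega⟩
    rw [show (-1 - (n : ℤ) + 1).toNat = 0 by omega, show (-(-1 - (n : ℤ) + 1)).toNat = n by omega,
      show (-1 - (n : ℤ)).toNat = 0 by omega, show (-(-1 - (n : ℤ))).toNat = n + 1 by omega,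
      sum_range_succ]
    ring

theorem bdd_cc {x : ℤ_[2]} (hx : x ≠ -1) : BddBelow (Set.range fun j => cc j x) := by
  obtain ⟨I₁, h1⟩ := al_step hx
  obtain ⟨I₂, h2⟩ := al_step (y := -2 - x) (fun h => hx (by linear_combination -h))
  have hp : ∀ j : ℤ, (I₂ : ℤ) + 1 ≤ j → cc j x ≤ cc (j + 1) x := by
    intro j hj
    obtain ⟨n, rfl⟩ : ∃ n : ℕ, j = n + 1 := ⟨(j - 1).toNat, by omega⟩
    have := h2 n (by omega)
    rw [cc_succ ((n : ℤ) + 1), ee, aa, aa, if_pos (by omega), if_pos (by omega),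
      show ((n : ℤ) + 1 - 1).toNat = n by omega, show ((n : ℤ) + 1).toNat = n + 1 by omega,
      show -1 - (x + 1) = -2 - x by ring, show -1 - x = -2 - x + 1 by ring]
    linarith
  have hn : ∀ j : ℤ, j ≤ -1 - (I₁ : ℤ) → cc (j + 1) x ≤ cc j x := by
    intro j hj
    obtain ⟨n, rfl⟩ : ∃ n : ℕ, j = -1 - n := ⟨(-1 - j).toNat, by omega⟩
    have := h1 n (by omega)
    rw [cc_succ, ee, aa, aa, if_neg (by omega), if_neg (by omega),
      show (-1 - (-1 - (n : ℤ) - 1)).toNat = n + 1 by omega,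
      show (-1 - (-1 - (n : ℤ))).toNat = n by omega]
    linarith
  obtain ⟨m, hm⟩ := ((Icc (-(I₁ : ℤ)) (I₂ + 1)).finite_toSet.image (fun j => cc j x)).bddBelow
  have hm' : ∀ j : ℤ, -(I₁ : ℤ) ≤ j → j ≤ I₂ + 1 → m ≤ cc j x := fun j a b =>
    hm ⟨j, by simp [a, b], rfl⟩
  refine ⟨m, ?_⟩
  rintro _ ⟨j, rfl⟩
  show m ≤ cc j x
  rcases le_or_gt ((I₂ : ℤ) + 1) j with h | h
  · induction j, h using Int.leInduction with
    | base => exact hm' _ (by omega) le_rfl
    | succ j hj ih => exact ih.trans (hp j hj)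
  · rcases le_or_gt j (-(I₁ : ℤ)) with h' | h'
    · clear h
      induction j, h' using Int.leInductionDown with
      | base => exact hm' _ le_rfl (by omega)
      | pred j hj ih =>
        have := hn (j - 1) (by omega)
        rw [sub_add_cancel] at this
        exact ih.trans this
    · exact hm' j h'.le h.le

/-- the weights of the shift -/
noncomputable def be (j : ℤ) (x : ℤ_[2]) : ℝ := Real.exp (-aa j x)

/-- the weights of the intertwiner -/
noncomputable def bb (j : ℤ) (x : ℤ_[2]) : ℝ := min 1 (Real.exp (-(cc j x - ⨅ i, cc i x)))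

theorem measurable_be (j : ℤ) : Measurable (be j) := (measurable_aa j).neg.exp

theorem measurable_bb (j : ℤ) : Measurable (bb j) :=
  measurable_const.min ((measurable_cc j).sub (Measurable.iInf measurable_cc)).neg.exp

theorem be_pos (j : ℤ) (x : ℤ_[2]) : 0 < be j x := Real.exp_pos _

theorem be_le (j : ℤ) (x : ℤ_[2]) : be j x ≤ Real.exp (-10) :=
  Real.exp_le_exp.2 (neg_le_neg (aa_ge_ten j x))

theorem be_le_one (j : ℤ) (x : ℤ_[2]) : |be j x| ≤ 1 := by
  rw [abs_of_pos (be_pos j x)]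
  exact (be_le j x).trans (Real.exp_le_one_iff.2 (by norm_num))

theorem bb_pos (j : ℤ) (x : ℤ_[2]) : 0 < bb j x := lt_min one_pos (Real.exp_pos _)

theorem bb_le (j : ℤ) (x : ℤ_[2]) : bb j x ≤ 1 := min_le_left _ _

theorem bb_le_one (j : ℤ) (x : ℤ_[2]) : |bb j x| ≤ 1 := by
  rw [abs_of_pos (bb_pos j x)]; exact bb_le j x

theorem be_bb {x : ℤ_[2]} (hx : x ≠ -1) (j : ℤ) :
    bb (j + 1) x * be j x = be (j - 1) (x + 1) * bb j x := by
  have h : ∀ j, bb j x = Real.exp (-(cc j x - ⨅ i, cc i x)) := fun j =>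
    min_eq_right (Real.exp_le_one_iff.2 (by linarith [ciInf_le (bdd_cc hx) j]))
  rw [h, h, be, be, ← Real.exp_add, ← Real.exp_add, cc_succ, ee]
  congr 1; ring

theorem prod_be (j : ℤ) (n : ℕ) (x : ℤ_[2]) :
    ∏ t ∈ range n, be (j + t) x ≤ Real.exp (-10 * (((n + 1) ^ 2 / 4 : ℕ) : ℝ)) := by
  simp only [be]
  rw [← Real.exp_sum, Real.exp_le_exp, sum_neg_distrib]
  linarith [sum_aa j n x]

instance : IsProbabilityMeasure haarTwoAdic :=
  ⟨by unfold haarTwoAdic; exact Measure.addHaarMeasure_self⟩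

instance : haarTwoAdic.IsAddHaarMeasure := by unfold haarTwoAdic; infer_instance

theorem ae_ne : ∀ᵐ x ∂haarTwoAdic, x ≠ -1 := by
  have : (𝓝[≠] (0 : ℤ_[2])).NeBot := by
    have h : Tendsto (fun n : ℕ => (2 : ℤ_[2]) ^ n) atTop (𝓝 0) :=
      tendsto_pow_atTop_nhds_zero_of_norm_lt_one (by
        have := PadicInt.norm_p (p := 2)
        rw [Nat.cast_ofNat] at this
        rw [this]; norm_num)
    exact (tendsto_nhdsWithin_iff.2 ⟨h, Eventually.of_forall fun n =>
      pow_ne_zero n two_ne_zero⟩).neBot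
  exact (Set.countable_singleton (-1 : ℤ_[2])).ae_notMem haarTwoAdic

theorem ergodic_succ : Ergodic (fun x : ℤ_[2] => 1 + x) haarTwoAdic := by
  refine ergodic_add_left_of_denseRange_nsmul ?_ haarTwoAdic
  simpa using PadicInt.denseRange_natCast (p := 2)

end Crest.Agent.R113S
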